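import Vale.Agent.P167.SLE.Seq6

/-!
# P167, general `q`, route (C): the comparison of two laws of curves by first hitting events

`Hit A V`: the curve visits `V` before `A` (open for `A` closed, `V` open; invariant under
reparametrisation). `Adm`: admissible pairs of compact connected sets, `A` crosses the wired arc, `B` the
free arc. `Cmp ν ν'`: the probabilities of the finite intersections of the events `Hit A (interior B)`
are comparable up to a small enlargement. `Law.law_eq`: then the two laws of curves are equal.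
-/

set_option autoImplicit false

open MeasureTheory Set Topology
open scoped NNReal

namespace Vale.Agent.P167.H259.C

open Vale.Agent.P167.SLE

/-- The curve `x` visits `V` before `A`. -/
def Hit (A V : Set ℂ) : Set C(unitInterval, ℂ) := {x | ∃ t, x t ∈ V ∧ ∀ s ≤ t, x s ∉ A}

/-- Admissible pairs: `A` crosses the closed wired arc `Wc` and does not meet the closed free arc `Fc`,
`B` crosses `Fc` and does not meet `Wc`. -/
structure Adm (Wc Fc A B : Set ℂ) : Prop where
  compA : IsCompact A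
  compB : IsCompact B
  connA : IsPreconnected A
  connB : IsPreconnected B
  disj : Disjoint A B
  freeA : Disjoint A Fc
  wirB : Disjoint B Wc
  meetA : (interior A ∩ Wc).Nonempty
  meetB : (interior B ∩ Fc).Nonempty

/-- The two closed boundary arcs in the coordinates of the half-plane. -/
def Arcs (ψ : ℂ → ℂ) (b : ℂ) (Wc Fc : Set ℂ) : Prop :=
  ∃ σ : ℝ, (σ = 1 ∨ σ = -1) ∧ Wc = insert b ((fun x : ℝ => ψ x) '' {x | σ * x ≤ 0}) ∧
    Fc = insert b ((fun x : ℝ => ψ x) '' {x | 0 ≤ σ * x})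

/-- The events of a finite family of pairs. -/
def Evs {J : Type} (A B : J → Set ℂ) : Set C(unitInterval, ℂ) :=
  {x | ∀ j, x ∈ Hit (A j) (interior (B j))}

/-- One half of the comparison of two laws of curves. -/
def CmpLe [MeasurableSpace C(unitInterval, ℂ)] (Wc Fc : Set ℂ) (m m' : Measure C(unitInterval, ℂ)) :
    Prop :=
  ∀ (J : Type) (_ : Finite J) (A B A' B' : J → Set ℂ), (∀ j, Adm Wc Fc (A j) (B j)) →
    (∀ j, Adm Wc Fc (A' j) (B' j)) → (∀ j, A' j ⊆ interior (A j)) →
    (∀ j, B j ⊆ interior (B' j)) → m (Evs A B) ≤ m' (Evs A' B')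

/-- **[C3]** The comparison of two laws of curves. -/
def Cmp [MeasurableSpace C(unitInterval, ℂ)] (Wc Fc : Set ℂ) (m m' : Measure C(unitInterval, ℂ)) :
    Prop := CmpLe Wc Fc m m' ∧ CmpLe Wc Fc m' m

theorem Hit.mono {A A' V V' : Set ℂ} (hA : A' ⊆ A) (hV : V ⊆ V') : Hit A V ⊆ Hit A' V' := by
  rintro x ⟨t, h1, h2⟩
  exact ⟨t, hV h1, fun s hs h => h2 s hs (hA h)⟩

/-- The image of the curve up to a time is compact. -/
theorem isCompact_img (x : C(unitInterval, ℂ)) (t : unitInterval) : IsCompact (x '' Iic t) :=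
  (isClosed_Iic.isCompact (s := Iic t)).image x.continuous

theorem isOpen_hit {A V : Set ℂ} (hA : IsClosed A) (hV : IsOpen V) : IsOpen (Hit A V) := by
  rw [Metric.isOpen_iff]
  rintro x ⟨t, h1, h2⟩
  obtain ⟨ε₁, hε₁, hb⟩ := Metric.isOpen_iff.1 hV _ h1
  obtain ⟨ε₂, hε₂, hd⟩ : ∃ ε > 0, ∀ y ∈ x '' Iic t, ∀ z ∈ A, ε ≤ dist y z := by
    rcases A.eq_empty_or_nonempty with rfl | hne
    · exact ⟨1, one_pos, fun _ _ z hz => absurd hz (notMem_empty z)⟩
    have hne' : (x '' Iic t).Nonempty := ⟨_, t, mem_Iic.2 le_rfl, rfl⟩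
    have hdis : Disjoint (x '' Iic t) A := by
      rw [Set.disjoint_left]
      rintro _ ⟨s, hs, rfl⟩ h
      exact h2 s hs h
    obtain ⟨δ, hδ, h⟩ := hdis.exists_thickenings (isCompact_img x t) hA
    refine ⟨δ, hδ, fun y hy z hz => ?_⟩
    by_contra hcon
    push Not at hcon
    exact Set.disjoint_left.1 h (Metric.mem_thickening_iff.2 ⟨y, hy, by rwa [dist_comm]⟩)
      (Metric.self_subset_thickening hδ A hz)
  refine ⟨min ε₁ ε₂, lt_min hε₁ hε₂, fun y hy => ⟨t, ?_, fun s hs hyA => ?_⟩⟩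
  · refine hb ?_
    exact (ContinuousMap.dist_apply_le_dist t).trans_lt
      ((Metric.mem_ball.1 hy).trans_le (min_le_left _ _))
  · have h3 := hd _ ⟨s, hs, rfl⟩ _ hyA
    have h4 := (ContinuousMap.dist_apply_le_dist (f := y) (g := x) s).trans_lt
      ((Metric.mem_ball.1 hy).trans_le (min_le_right _ _))
    rw [dist_comm] at h3
    linarith

theorem hit_reparam {A V : Set ℂ} (x : C(unitInterval, ℂ)) (σ : unitInterval ≃o unitInterval) :
    Vale.Agent.P153.R2.C1.reparam x σ ∈ Hit A V ↔ x ∈ Hit A V := by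
  constructor
  · rintro ⟨t, h1, h2⟩
    rw [Vale.Agent.P153.R2.C1.reparam_apply] at h1
    refine ⟨σ t, h1, fun s hs h => ?_⟩
    refine h2 (σ.symm s) (by rw [← σ.symm_apply_apply t]; exact σ.symm.monotone hs) ?_
    rwa [Vale.Agent.P153.R2.C1.reparam_apply, σ.apply_symm_apply]
  · rintro ⟨t, h1, h2⟩
    refine ⟨σ.symm t, ?_, fun s hs h => ?_⟩
    · rwa [Vale.Agent.P153.R2.C1.reparam_apply, σ.apply_symm_apply]
    · rw [Vale.Agent.P153.R2.C1.reparam_apply] at h
      refine h2 _ ?_ h
      rw [← σ.apply_symm_apply t]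
      exact σ.monotone hs

end Vale.Agent.P167.H259.C
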