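import Vale.Agent.P167.H259.C.Asm
import Vale.Agent.P167.H714.C1.SC1
import Vale.Agent.P167.H199.C.SC2
import Vale.Agent.P167.H199.C.Stab
import Vale.Agent.P167.H437Q.C3of
import Vale.Agent.P167.H634.Apx.SPoly
import Vale.Agent.P167.H634.Apx.Sha
import Vale.Agent.P167.QG.Apx5

/-!
# P167, general `q`, route (C): Stage II from Stage I and the driver tightness

`question_C`: the curve theorem for the staircase class and `DTOut` (every subsequential limit of the
interfaces is the curve of a Loewner chain with a continuous driver) imply the question.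
-/

set_option autoImplicit false

namespace Vale.Agent.P167.H259.C

open Vale.Agent.P167.H199.C
open Vale.Agent.P167.QE (CurveLimitOn wq)

theorem s_poly : S_poly QT.StairU := by
  refine H634.Apx.s_poly_of ?_
  intro m q S₀ hq hE σ hc hm hσ ha j hj1 hj2 r hj lam hlam Φ hΦ δ hδ h0
  exact QG.Apx.approx_stair hq hE hc hm hσ ha hj1 hj2 hj hlam hΦ hδ h0

theorem s_c3 {q : ℝ} (hq : 1 ≤ q) (Ω : Type) [MeasurableSpace Ω] (P : MeasureTheory.Measure Ω)
    [MeasureTheory.IsProbabilityMeasure P] (γ : Ω → ℝ → ℂ)
    (h : CL QT.StairU (Final.kappa q) (wq q) P γ) : S_C3 q P γ :=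
  H437Q.C3.c3_of (zero_lt_one.trans_le hq) H714.C1.s_c1 (s_c2 hq) H634.Apx.s_sha s_poly s_stab
    Ω P γ h

/-- **Stage II from Stage I and the driver tightness.** -/
theorem question_C {q : ℝ} (hq : 1 ≤ q)
    (hK : CurveLimitOn QT.StairU (Final.kappa q) (wq q)) (hDT : DTOut q) : Final.Question q :=
  question_of_C (zero_lt_one.trans_le hq) hK (s_c3 hq) hDT

end Vale.Agent.P167.H259.C
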