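import Vale.Agent.P167.H259.C.Defs
import Vale.Agent.P167.H199.C.CDefs
import Vale.Agent.P167.SLE.Asm6
import Vale.Agent.P153.R2.R1.Jordan

/-!
# P167, general `q`, route (C): the arcs in the half-plane

`arcs_of`: a uniformizer sends one real half-line to the free arc and the other one to the wired arc.
-/

set_option autoImplicit false

open Set Filter Topology Metric Bornology

namespace Vale.Agent.P167.H259.C

open Vale.Agent.P153.R2 Vale.Agent.P153.R2.DET Vale.Agent.P167.SLE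
open Vale.Agent.P153.R2.Final (dom circ toC IsUniformizer)
open Vale.Agent.P167.H199.C (fArc wArc co)

variable {Φ : (ℝ × ℝ) ≃ₜ (ℝ × ℝ)} {ψ : ℂ → ℂ}

theorem continuous_co (Φ : (ℝ × ℝ) ≃ₜ (ℝ × ℝ)) : Continuous (co Φ) :=
  Φ.symm.continuous.comp (Complex.continuous_re.prodMk Complex.continuous_im)

theorem co_toC (Φ : (ℝ × ℝ) ≃ₜ (ℝ × ℝ)) (w : ℝ × ℝ) : co Φ (toC (Φ w)) = w := by
  show Φ.symm (Φ w) = w
  exact Φ.symm_apply_apply w

theorem toC_co (Φ : (ℝ × ℝ) ≃ₜ (ℝ × ℝ)) (z : ℂ) : toC (Φ (co Φ z)) = z := by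
  show toC (Φ (Φ.symm (z.re, z.im))) = z
  rw [Φ.apply_symm_apply]
  rfl

theorem co_inj {Φ : (ℝ × ℝ) ≃ₜ (ℝ × ℝ)} {z w : ℂ} (h : co Φ z = co Φ w) : z = w := by
  rw [← toC_co Φ z, h, toC_co]

theorem continuous_fc (Φ : (ℝ × ℝ) ≃ₜ (ℝ × ℝ)) : Continuous fun t => toC (Φ (circ t)) :=
  R1.continuous_toC.comp (Φ.continuous.comp (by unfold circ; fun_prop))

theorem isClosed_fArc (Φ : (ℝ × ℝ) ≃ₜ (ℝ × ℝ)) : IsClosed (fArc Φ) :=
  (isCompact_Icc.image (continuous_fc Φ)).isClosed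

theorem isClosed_wArc (Φ : (ℝ × ℝ) ≃ₜ (ℝ × ℝ)) : IsClosed (wArc Φ) :=
  (isCompact_Icc.image (continuous_fc Φ)).isClosed

/-- The unit circle. -/
theorem exists_circ {w : ℝ × ℝ} (h : w.1 ^ 2 + w.2 ^ 2 = 1) :
    ∃ t, circ t = w ∧ ((0 ≤ w.2 → t ∈ Icc 0 Real.pi)) ∧ (w.2 ≤ 0 → w ≠ (1, 0) →
      ∃ t' ∈ Icc Real.pi (2 * Real.pi), circ t' = w) := by
  have hpi := Real.pi_pos
  have h1 : -1 ≤ w.1 := by nlinarith [sq_nonneg w.2]
  have h2 : w.1 ≤ 1 := by nlinarith [sq_nonneg w.2]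
  have hc := Real.cos_arccos h1 h2
  have hs : Real.sin (Real.arccos w.1) = |w.2| := by
    rw [Real.sin_arccos]
    have : 1 - w.1 ^ 2 = w.2 ^ 2 := by linarith
    rw [this, Real.sqrt_sq_eq_abs]
  rcases le_or_gt 0 w.2 with h3 | h3
  · refine ⟨Real.arccos w.1, ?_, fun _ => ⟨Real.arccos_nonneg _, Real.arccos_le_pi _⟩, ?_⟩
    · rw [abs_of_nonneg h3] at hs
      exact Prod.ext hc hs
    · intro h4 h5
      have h6 : w.2 = 0 := le_antisymm h4 h3
      have h7 : w.1 = -1 := by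
        have h8 : (w.1 - 1) * (w.1 + 1) = 0 := by rw [h6] at h; linear_combination h
        rcases mul_eq_zero.1 h8 with h9 | h9
        · exact absurd (Prod.ext (by linarith) h6) h5
        · linarith
      refine ⟨Real.pi, ⟨le_rfl, by linarith⟩, ?_⟩
      refine Prod.ext ?_ ?_
      · show Real.cos Real.pi = w.1
        rw [Real.cos_pi, h7]
      · show Real.sin Real.pi = w.2
        rw [Real.sin_pi, h6]
  · have e1 : circ (2 * Real.pi - Real.arccos w.1) = w := by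
      refine Prod.ext ?_ ?_
      · show Real.cos (2 * Real.pi - Real.arccos w.1) = w.1
        rw [Real.cos_two_pi_sub, hc]
      · show Real.sin (2 * Real.pi - Real.arccos w.1) = w.2
        rw [Real.sin_two_pi_sub, hs, abs_of_neg h3, neg_neg]
    refine ⟨2 * Real.pi - Real.arccos w.1, e1, fun h4 => absurd h4 (not_le.2 h3), fun _ _ =>
      ⟨_, ⟨?_, ?_⟩, e1⟩⟩
    · linarith [Real.arccos_le_pi w.1]
    · linarith [Real.arccos_nonneg w.1]

theorem mem_fArc {z : ℂ} : z ∈ fArc Φ ↔ (co Φ z).1 ^ 2 + (co Φ z).2 ^ 2 = 1 ∧ 0 ≤ (co Φ z).2 := by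
  constructor
  · rintro ⟨t, ht, rfl⟩
    simp only
    rw [co_toC]
    exact ⟨Real.cos_sq_add_sin_sq t, Real.sin_nonneg_of_mem_Icc ht⟩
  · rintro ⟨h1, h2⟩
    obtain ⟨t, h3, h4, -⟩ := exists_circ h1
    refine ⟨t, h4 h2, ?_⟩
    simp only
    rw [h3, toC_co]

theorem mem_wArc {z : ℂ} : z ∈ wArc Φ ↔ (co Φ z).1 ^ 2 + (co Φ z).2 ^ 2 = 1 ∧ (co Φ z).2 ≤ 0 := by
  constructor
  · rintro ⟨t, ht, rfl⟩
    simp only
    rw [co_toC]
    refine ⟨Real.cos_sq_add_sin_sq t, ?_⟩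
    show Real.sin t ≤ 0
    have h1 : Real.sin (2 * Real.pi - t) = - Real.sin t := Real.sin_two_pi_sub t
    have h2 : 0 ≤ Real.sin (2 * Real.pi - t) :=
      Real.sin_nonneg_of_mem_Icc ⟨by linarith [ht.2], by linarith [ht.1]⟩
    linarith
  · rintro ⟨h1, h2⟩
    by_cases h5 : co Φ z = (1, 0)
    · refine ⟨2 * Real.pi, ⟨by linarith [Real.pi_pos], le_rfl⟩, ?_⟩
      simp only
      have : circ (2 * Real.pi) = co Φ z := by
        rw [h5]
        exact Prod.ext Real.cos_two_pi Real.sin_two_pi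
      rw [this, toC_co]
    · obtain ⟨t, -, -, h4⟩ := exists_circ h1
      obtain ⟨t', h6, h7⟩ := h4 h2 h5
      refine ⟨t', h6, ?_⟩
      simp only
      rw [h7, toC_co]

theorem mem_dom_iff {z : ℂ} : z ∈ toC '' dom Φ ↔ (co Φ z).1 ^ 2 + (co Φ z).2 ^ 2 < 1 := by
  constructor
  · rintro ⟨_, ⟨w, hw, rfl⟩, rfl⟩
    rw [co_toC]
    exact hw
  · intro h
    exact ⟨Φ (co Φ z), ⟨_, h, rfl⟩, toC_co Φ z⟩

theorem isOpen_domC : IsOpen (toC '' dom Φ) := by
  have h1 : toC '' dom Φ = {z | (co Φ z).1 ^ 2 + (co Φ z).2 ^ 2 < 1} := by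
    ext z
    exact mem_dom_iff
  rw [h1]
  have := continuous_co Φ
  exact isOpen_lt (by fun_prop) continuous_const

/-- Real points go to the boundary. -/
theorem real_bd (hψ : IsUniformizer Φ ψ) (x : ℝ) :
    (co Φ (ψ x)).1 ^ 2 + (co Φ (ψ x)).2 ^ 2 = 1 := by
  have hU := uni_of_uniformizer R1.i_uinj hψ
  obtain ⟨-, -, h3, h4, -, -⟩ := hψ
  have hxHC : (x : ℂ) ∈ HC := by simp [HC]
  refine le_antisymm ?_ (not_lt.1 fun hlt => ?_)
  · have hcl : IsClosed {z : ℂ | (co Φ z).1 ^ 2 + (co Φ z).2 ^ 2 ≤ 1} := by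
      have := continuous_co Φ
      exact isClosed_le (by fun_prop) continuous_const
    have hx : (x : ℂ) ∈ closure {z : ℂ | 0 < z.im} := by
      rw [Complex.closure_setOfPred_lt_im]
      exact hxHC
    have h5 : ψ x ∈ closure (ψ '' {z | 0 < z.im}) := by
      refine ContinuousWithinAt.mem_closure_image ?_ hx
      exact (h4 x hxHC).mono fun z hz => (le_of_lt (show 0 < z.im from hz) : 0 ≤ z.im)
    rw [h3] at h5
    refine (closure_minimal ?_ hcl) h5
    intro z hz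
    exact (mem_dom_iff.1 hz).le
  · have h5 : ψ x ∈ toC '' dom Φ := mem_dom_iff.2 hlt
    rw [← h3] at h5
    obtain ⟨z, hz, he⟩ := h5
    have h6 := hU.inj (show z ∈ HC from (le_of_lt (show 0 < z.im from hz))) hxHC he
    rw [h6] at hz
    simp at hz

/-- Boundary points come from real points. -/
theorem exists_real (hψ : IsUniformizer Φ ψ) {z : ℂ} (hz : (co Φ z).1 ^ 2 + (co Φ z).2 ^ 2 = 1)
    (hb : z ≠ bq Φ) : ∃ x : ℝ, ψ x = z := by
  have hU := uni_of_uniformizer R1.i_uinj hψ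
  obtain ⟨-, -, h3, h4, -, -⟩ := hψ
  set c : ℕ → ℝ := fun n => 1 - 1 / ((n : ℝ) + 1) with hc
  have hclim : Tendsto c atTop (𝓝 1) := by
    have := (tendsto_one_div_add_atTop_nhds_zero_nat (𝕜 := ℝ)).const_sub 1
    rwa [sub_zero] at this
  have hc01 : ∀ n, 0 ≤ c n ∧ c n < 1 := by
    intro n
    have h5 : 0 < 1 / ((n : ℝ) + 1) := by positivity
    have h6 : 1 / ((n : ℝ) + 1) ≤ 1 := by
      rw [div_le_one (by positivity)]
      have : (0 : ℝ) ≤ n := Nat.cast_nonneg n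
      linarith
    exact ⟨by rw [hc]; simp only; linarith, by rw [hc]; simp only; linarith⟩
  set u : ℕ → ℂ := fun n => toC (Φ (c n • co Φ z)) with hu
  have hulim : Tendsto u atTop (𝓝 z) := by
    have h5 : Continuous fun s : ℝ => toC (Φ (s • co Φ z)) :=
      R1.continuous_toC.comp (Φ.continuous.comp (by fun_prop))
    have h6 := (h5.tendsto 1).comp hclim
    rw [one_smul, toC_co] at h6
    exact h6
  have hud : ∀ n, u n ∈ toC '' dom Φ := by
    intro n
    rw [mem_dom_iff, hu]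
    simp only
    rw [co_toC]
    show (c n * (co Φ z).1) ^ 2 + (c n * (co Φ z).2) ^ 2 < 1
    have h5 : (c n * (co Φ z).1) ^ 2 + (c n * (co Φ z).2) ^ 2 = c n ^ 2 := by
      linear_combination (c n ^ 2) * hz
    rw [h5]
    nlinarith [hc01 n]
  rw [← h3] at hud
  choose w hw hwu using hud
  obtain ⟨y, hy, hye⟩ := hU.exists (l := atTop) (u := w)
    (Eventually.of_forall fun n => (le_of_lt (show 0 < (w n).im from hw n) : 0 ≤ (w n).im)) hb
    (by simp only [hwu]; exact hulim)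
  rcases (show 0 ≤ y.im from hy).eq_or_lt with h5 | h5
  · refine ⟨y.re, ?_⟩
    have : ((y.re : ℝ) : ℂ) = y := Complex.ext (by simp) (by simp [← h5])
    rw [this, hye]
  · exfalso
    have h6 : z ∈ toC '' dom Φ := by
      rw [← h3, ← hye]
      exact ⟨y, h5, rfl⟩
    rw [mem_dom_iff] at h6
    linarith

/-- A continuous function without zeros on a half-line has a constant sign. -/
theorem const_sign {g : ℝ → ℝ} (hg : Continuous g) {s : Set ℝ} (hs : s.OrdConnected)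
    (h0 : ∀ x ∈ s, g x ≠ 0) : (∀ x ∈ s, 0 < g x) ∨ (∀ x ∈ s, g x < 0) := by
  by_contra hcon
  push Not at hcon
  obtain ⟨⟨x, hx, hx'⟩, y, hy, hy'⟩ := hcon
  obtain ⟨z, hz, hz0⟩ := intermediate_value_uIcc (a := x) (b := y) hg.continuousOn
    (mem_uIcc.2 (Or.inl ⟨hx', hy'⟩))
  exact h0 z (hs.uIcc_subset hx hy hz) hz0

/-- **The arcs.** -/
theorem arcs_of (hψ : IsUniformizer Φ ψ) : Arcs ψ (bq Φ) (wArc Φ) (fArc Φ) := by
  have hU := uni_of_uniformizer R1.i_uinj hψ
  have h0 : ψ 0 = toC (Φ (circ 0)) := hψ.2.2.2.2.1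
  have hcoc : Continuous fun x : ℝ => co Φ (ψ x) := by
    refine (continuous_co Φ).comp ?_
    have h1 : ContinuousOn (fun x : ℝ => ψ x) univ := by
      refine hU.cont.comp Complex.continuous_ofReal.continuousOn ?_
      intro x _
      simp [HC]
    exact continuousOn_univ.1 h1
  set g : ℝ → ℝ := fun x => (co Φ (ψ x)).2 with hg
  have hgc : Continuous g := continuous_snd.comp hcoc
  have hreal : ∀ x : ℝ, (x : ℂ) ∈ HC := fun x => by simp [HC]
  have hne : ∀ x : ℝ, x ≠ 0 → g x ≠ 0 := by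
    intro x hx h1
    have h2 := real_bd hψ x
    have h3 : (co Φ (ψ x)).2 = 0 := h1
    have h8 : ((co Φ (ψ x)).1 - 1) * ((co Φ (ψ x)).1 + 1) = 0 := by
      rw [h3] at h2
      linear_combination h2
    rcases mul_eq_zero.1 h8 with h9 | h9
    · apply hx
      have h4 : ψ x = ψ (0 : ℝ) := by
        rw [Complex.ofReal_zero, h0]
        apply co_inj (Φ := Φ)
        rw [co_toC]
        refine Prod.ext ?_ ?_
        · show _ = Real.cos 0
          rw [Real.cos_zero]; linarith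
        · show _ = Real.sin 0
          rw [Real.sin_zero]; exact h3
      exact_mod_cast hU.inj (hreal x) (hreal 0) h4
    · refine hU.ne x (hreal x) ?_
      apply co_inj (Φ := Φ)
      rw [bq, co_toC]
      refine Prod.ext ?_ ?_
      · show _ = Real.cos Real.pi
        rw [Real.cos_pi]; linarith
      · show _ = Real.sin Real.pi
        rw [Real.sin_pi]; exact h3
  have hg0 : g 0 = 0 := by
    show (co Φ (ψ ((0 : ℝ) : ℂ))).2 = 0
    rw [Complex.ofReal_zero, h0, co_toC]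
    exact Real.sin_zero
  -- both signs occur
  have hocc : ∀ s : ℝ, (s = 1 ∨ s = -1) → ∃ x : ℝ, g x = s := by
    intro s hs
    have e1 : co Φ (toC (Φ (0, s))) = (0, s) := co_toC Φ _
    obtain ⟨x, hx⟩ := exists_real hψ (z := toC (Φ (0, s))) (by
      rw [e1]; rcases hs with h | h <;> rw [h] <;> norm_num) (by
      intro h
      have h1 : co Φ (toC (Φ (0, s))) = co Φ (bq Φ) := by rw [h]
      rw [bq, co_toC, co_toC] at h1
      have h2 : s = Real.sin Real.pi := congrArg Prod.snd h1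
      rw [Real.sin_pi] at h2
      rcases hs with h | h <;> rw [h] at h2 <;> norm_num at h2)
    refine ⟨x, ?_⟩
    show (co Φ (ψ x)).2 = s
    rw [hx, e1]
  obtain ⟨x₁, hx₁⟩ := hocc 1 (Or.inl rfl)
  obtain ⟨x₂, hx₂⟩ := hocc (-1) (Or.inr rfl)
  have hx₁0 : x₁ ≠ 0 := by rintro rfl; rw [hg0] at hx₁; norm_num at hx₁
  have hx₂0 : x₂ ≠ 0 := by rintro rfl; rw [hg0] at hx₂; norm_num at hx₂
  have key : ∃ σ : ℝ, (σ = 1 ∨ σ = -1) ∧ ∀ x : ℝ, (0 ≤ g x ↔ 0 ≤ σ * x) ∧ (g x ≤ 0 ↔ σ * x ≤ 0) := by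
    have hp := const_sign hgc (s := Ioi 0) ordConnected_Ioi fun x hx => hne x (ne_of_gt hx)
    have hm := const_sign hgc (s := Iio 0) ordConnected_Iio fun x hx => hne x (ne_of_lt hx)
    rcases hp with hp | hp <;> rcases hm with hm | hm
    · exfalso
      rcases lt_or_gt_of_ne hx₂0 with h1 | h1
      · have := hm x₂ h1; rw [hx₂] at this; norm_num at this
      · have := hp x₂ h1; rw [hx₂] at this; norm_num at this
    · refine ⟨1, Or.inl rfl, fun x => ?_⟩
      rcases lt_trichotomy x 0 with h1 | h1 | h1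
      · have h2 := hm x h1
        exact ⟨⟨fun h => by linarith, fun h => by linarith⟩, ⟨fun h => by linarith,
          fun h => h2.le⟩⟩
      · rw [h1, hg0]; simp
      · have h2 := hp x h1
        exact ⟨⟨fun h => by linarith, fun h => h2.le⟩, ⟨fun h => by linarith,
          fun h => by linarith⟩⟩
    · refine ⟨-1, Or.inr rfl, fun x => ?_⟩
      rcases lt_trichotomy x 0 with h1 | h1 | h1
      · have h2 := hm x h1
        exact ⟨⟨fun h => by linarith, fun h => h2.le⟩, ⟨fun h => by linarith,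
          fun h => by linarith⟩⟩
      · rw [h1, hg0]; simp
      · have h2 := hp x h1
        exact ⟨⟨fun h => by linarith, fun h => by linarith⟩, ⟨fun h => by linarith,
          fun h => h2.le⟩⟩
    · exfalso
      rcases lt_or_gt_of_ne hx₁0 with h1 | h1
      · have := hm x₁ h1; rw [hx₁] at this; norm_num at this
      · have := hp x₁ h1; rw [hx₁] at this; norm_num at this
  obtain ⟨σ, hσ, hs⟩ := key
  have hbco : co Φ (bq Φ) = (-1, 0) := by
    rw [bq, co_toC]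
    exact Prod.ext Real.cos_pi Real.sin_pi
  refine ⟨σ, hσ, ?_, ?_⟩
  · ext z
    rw [mem_wArc]
    constructor
    · rintro ⟨h1, h2⟩
      by_cases hb : z = bq Φ
      · exact Or.inl hb
      · obtain ⟨x, rfl⟩ := exists_real hψ h1 hb
        exact Or.inr ⟨x, (hs x).2.1 h2, rfl⟩
    · rintro (rfl | ⟨x, hx, rfl⟩)
      · rw [hbco]; norm_num
      · exact ⟨real_bd hψ x, (hs x).2.2 hx⟩
  · ext z
    rw [mem_fArc]
    constructor
    · rintro ⟨h1, h2⟩
      by_cases hb : z = bq Φ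
      · exact Or.inl hb
      · obtain ⟨x, rfl⟩ := exists_real hψ h1 hb
        exact Or.inr ⟨x, (hs x).1.1 h2, rfl⟩
    · rintro (rfl | ⟨x, hx, rfl⟩)
      · rw [hbco]; norm_num
      · exact ⟨real_bd hψ x, (hs x).1.2 hx⟩

end Vale.Agent.P167.H259.C
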