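import Vale.Agent.P167.H259.C.Law
import Vale.Agent.P167.H259.C.Arcs
import Vale.Agent.P167.QE.On

/-!
# P167, general `q`, route (C): the output of the driver tightness
-/

set_option autoImplicit false

open MeasureTheory Filter Topology Set
open scoped NNReal

namespace Vale.Agent.P167.H259.C

open Vale.Agent.P167.E6
open Vale.Agent.P167.SLE
open Vale.Agent.P153.R2.C1 (reparam)
open Vale.Agent.P153.R2.Final (dom circ toC IsUniformizer)

/-- **[DT], output**: every subsequence of the interfaces of any approximation of any marked domain has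
a further subsequence along which the interfaces converge in law to the image of the trace of a Loewner
chain with a (random) continuous driver. -/
def DTOut (q : ℝ) : Prop :=
  ∀ [MeasurableSpace C(ℝ≥0, ℝ)] [BorelSpace C(ℝ≥0, ℝ)] [MeasurableSpace C(unitInterval, ℂ)]
    [BorelSpace C(unitInterval, ℂ)] (Φ : (ℝ × ℝ) ≃ₜ (ℝ × ℝ)) (ψ : ℂ → ℂ), IsUniformizer Φ ψ →
    ∀ (δ : ℕ → ℝ) (N k : ℕ → ℕ) (p : ∀ n, ZMod (N n) → ℤ × ℤ) (S : ℕ → Finset (ℤ × ℤ)),
    Approx Φ δ N k p S → ∀ c : ℕ → Finset (Sym2 (ℤ × ℤ)) → C(unitInterval, ℂ),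
    (∀ n, ∀ A ⊆ edges (S n), IsInterface (p n) (k n) (δ n) A (c n A)) →
    ∀ κ : ℕ → ℕ, StrictMono κ →
    ∃ (θ : ℕ → ℕ) (lam : Measure C(ℝ≥0, ℝ)) (ν : Measure (C(ℝ≥0, ℝ) × C(unitInterval, ℂ))),
      StrictMono θ ∧ IsLim ψ (bq Φ) lam ν ∧
      ∀ F : C(unitInterval, ℂ) → ℝ, Continuous F → (∃ M, ∀ x, |F x| ≤ M) →
        (∀ (x : C(unitInterval, ℂ)) (σ : unitInterval ≃o unitInterval), F (reparam x σ) = F x) →
        Tendsto (fun n => Final.mean q (p (κ (θ n))) (k (κ (θ n))) (S (κ (θ n))) fun A =>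
          F (c (κ (θ n)) A)) atTop (𝓝 (∫ y, F y.2 ∂ν))

end Vale.Agent.P167.H259.C
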