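import Vale.Agent.P167.H259.C.Out
import Vale.Agent.P167.H199.C.Cmp
import Vale.Agent.P167.H199.C.Meas

/-!
# P167, general `q`, route (C): the assembly

`cl_univ`: from the curve theorem for a class `K`, the output `S_C3` of (C3) and the output `DTOut` of
the driver tightness, the curve theorem for all approximations of all marked domains.
-/

set_option autoImplicit false

open MeasureTheory Filter Topology Set ProbabilityTheory
open scoped NNReal

namespace Vale.Agent.P167.H259.C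

open Vale.Agent.P164
open Vale.Agent.P153.R2 Vale.Agent.P153.R2.DET
open Vale.Agent.P167.E6
open Vale.Agent.P167.SLE
open Vale.Agent.P153.R2.C1 (reparam)
open Vale.Agent.P153.R2.Final (dom circ toC IsUniformizer)
open Vale.Agent.P167.QE (Cls CurveLimitOn wq meanW)
open Vale.Agent.P167.H199.C

theorem gd_of_capG {ψ : ℂ → ℂ} {b : ℂ} {w : C(ℝ≥0, ℝ)} {x : C(unitInterval, ℂ)}
    (h : CapG ψ b w x) : x ∈ Gd ψ b := by
  obtain ⟨γ, h1, h2, h3⟩ := h
  exact ⟨_, γ, w.continuous.comp continuous_real_toNNReal, h1, h2, h3⟩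

theorem gd_ae {Ω : Type} [MeasurableSpace Ω] {P : Measure Ω} {κ : ℝ} {γ : Ω → ℝ → ℂ}
    (h : IsSLE κ P γ) {Φ : (ℝ × ℝ) ≃ₜ (ℝ × ℝ)} {ψ : ℂ → ℂ} {G : Ω → C(unitInterval, ℂ)}
    (hG : IsG Φ ψ P γ G) : ∀ᵐ ω ∂P, G ω ∈ Gd ψ (bq Φ) := by
  obtain ⟨B, hB, hT⟩ := h
  filter_upwards [hB.cont, hT, hG.1] with ω h1 h2 h3
  refine ⟨fun t => √κ * B t.toNNReal ω, γ ω, ?_, h2, h3.1, h3.2⟩
  exact continuous_const.mul (h1.comp continuous_real_toNNReal)

/-- Reparametrisations as strictly increasing surjections. -/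
theorem inv_iso {F : C(unitInterval, ℂ) → ℝ}
    (h : ∀ (x : C(unitInterval, ℂ)) (σ : C(unitInterval, unitInterval)), StrictMono σ →
      Function.Surjective σ → F (x.comp σ) = F x) (x : C(unitInterval, ℂ))
    (σ : unitInterval ≃o unitInterval) : F (reparam x σ) = F x := by
  have := h x ⟨σ, σ.continuous⟩ σ.strictMono σ.surjective
  rw [← this]
  congr 1

/-- **The assembly of route (C).** -/
theorem cl_univ {K : Cls} {q : ℝ} (hq : 0 < q) {Ω : Type} [MeasurableSpace Ω] {P : Measure Ω}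
    [IsProbabilityMeasure P] {γ : Ω → ℝ → ℂ} (hCL : CL K (Final.kappa q) (wq q) P γ)
    (h3 : S_C3 q P γ) (hDT : DTOut q) : CL Cls.univ (Final.kappa q) (wq q) P γ := by
  classical
  let _ : MeasurableSpace C(ℝ≥0, ℝ) := borel _
  have _ : BorelSpace C(ℝ≥0, ℝ) := ⟨rfl⟩
  let _ : MeasurableSpace C(unitInterval, ℂ) := borel _
  have _ : BorelSpace C(unitInterval, ℂ) := ⟨rfl⟩
  refine ⟨hCL.1, fun Φ => ⟨(hCL.2 Φ).1, fun ψ hψ => ?_⟩⟩
  obtain ⟨G, hG, hG2⟩ := (hCL.2 Φ).2 ψ hψ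
  refine ⟨G, hG, fun δ N k p S hA => ⟨(hG2 δ N k p S hA).1, fun _ c hc F hF hM hinv => ?_⟩⟩
  have hGm : AEMeasurable G P := aemeasurable_of_cont hG.2
  have hpm := Measure.isProbabilityMeasure_map hGm
  have hU := uni_of_uniformizer R1.i_uinj hψ
  refine tendsto_of_subseq_tendsto fun κ0 hκ0 => ?_
  obtain ⟨φ, hφ, hκ⟩ := strictMono_subseq_of_tendsto_atTop hκ0
  obtain ⟨θ, lam, ν, hθ, hν, hlim⟩ := hDT Φ ψ hψ δ N k p S hA c hc (κ0 ∘ φ) hκ
  have hνp := hν.prob
  set m : Measure C(unitInterval, ℂ) := ν.map Prod.snd with hm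
  have hmp : IsProbabilityMeasure m :=
    Measure.isProbabilityMeasure_map continuous_snd.measurable.aemeasurable
  have hmF : ∀ F : C(unitInterval, ℂ) → ℝ, Continuous F → ∫ x, F x ∂m = ∫ y, F y.2 ∂ν := by
    intro F hF
    exact integral_map continuous_snd.measurable.aemeasurable hF.aestronglyMeasurable
  have hGd : ∀ᵐ x ∂m, x ∈ Gd ψ (bq Φ) := by
    let _ := TopologicalSpace.upgradeIsCompletelyMetrizable C(ℝ≥0, ℝ)
    refine ae_map_of_continuous ν continuous_snd ?_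
    filter_upwards [hν.cap] with y hy
    exact gd_of_capG hy
  have hC : Cmp (wArc Φ) (fArc Φ) m (P.map G) := by
    refine cmp_of_C3 hq h3 hψ hG hGm hA hc (θ := fun n => (κ0 ∘ φ) (θ n)) (hκ.comp hθ) ?_
    intro F hF hM hinv
    rw [hmF F hF]
    exact hlim F hF hM hinv
  have heq : m = P.map G := law_eq_map hU (isClosed_wArc Φ) (isClosed_fArc Φ) (arcs_of hψ) hGm hGd
    (gd_ae hCL.1 hG) hC
  refine ⟨fun n => φ (θ n), ?_⟩
  have h4 := hlim F hF hM (inv_iso hinv)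
  rw [← hmF F hF, heq, integral_map hGm hF.aestronglyMeasurable] at h4
  exact h4

/-- **Route (C).** -/
theorem question_of_C {K : Cls} {q : ℝ} (hq : 0 < q)
    (hK : CurveLimitOn K (Final.kappa q) (wq q))
    (h3 : ∀ (Ω : Type) [MeasurableSpace Ω] (P : Measure Ω) [IsProbabilityMeasure P]
      (γ : Ω → ℝ → ℂ), CL K (Final.kappa q) (wq q) P γ → S_C3 q P γ)
    (hDT : DTOut q) : Final.Question q := by
  obtain ⟨Ω, mΩ, P, hP, γ, h⟩ := curveLimitOn_iff.1 hK
  exact QE.question_of_univ (QE.questionOn_of_curve hq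
    (curveLimitOn_iff.2 ⟨Ω, mΩ, P, hP, γ, cl_univ hq h (h3 Ω P γ h) hDT⟩))

end Vale.Agent.P167.H259.C
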