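import Vale.Agent.P167.H259.C.TipC
import Vale.Agent.P153.R2.L1.Stmts

/-!
# P167, route (C): comparison of capacities

`cap_le`: if the domain of the chain of `W'` at time `t` is contained in the domain of the chain of `W`
at time `s` then `s ≤ t`.
-/

set_option autoImplicit false

open Set Filter Topology Metric Vale.Agent.P164 Bornology

namespace Vale.Agent.P167.H259.C

open Vale.Agent.P153.R2 Vale.Agent.P153.R2.ARCX Vale.Agent.P167.SLE
open Vale.Agent.P153.R2.L1 (IsHydro hcap)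

variable {W W' : ℝ → ℝ}

/-- The images of far points stay far. -/
theorem exists_far' (hW : Continuous W) {t : ℝ} (ht : 0 ≤ t) :
    ∃ R : ℝ, 1 ≤ R ∧ ∀ z : ℂ, 0 < z.im → R ≤ ‖z‖ → z ∈ loewnerDomain W t ∧
      ∀ s ∈ Icc 0 t, ‖z‖ / 4 ≤ ‖Zf W z s‖ := by
  obtain ⟨M', hM'⟩ := (isCompact_Icc (a := (0 : ℝ)) (b := t)).exists_bound_of_continuousOn
    hW.continuousOn
  have hM'0 : 0 ≤ |M'| := abs_nonneg _
  refine ⟨2 * (8 * (1 + t) + 16 * |M'|), by linarith, fun z hz hzR => ?_⟩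
  set ϰ : ℝ := ‖z‖ / 2 with hϰ
  have hϰ1 : 8 * (1 + t) + 16 * |M'| ≤ ϰ := by rw [hϰ]; linarith
  have hϰ0 : 0 < ϰ := by linarith
  have hϰS : t ≤ ϰ ^ 2 / 64 := by
    have h2 : (8 * (1 + t)) ^ 2 ≤ ϰ ^ 2 := pow_le_pow_left₀ (by linarith) (by linarith) 2
    nlinarith
  have h0 : ϰ ≤ ‖z - (W 0 : ℂ)‖ := by
    have h1 := hM' 0 ⟨le_rfl, ht⟩
    have h2 := le_abs_self M'
    have h3 : ‖z‖ - ‖((W 0 : ℝ) : ℂ)‖ ≤ ‖z - (W 0 : ℂ)‖ := norm_sub_norm_le _ _
    rw [Complex.norm_real] at h3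
    have h4 : ‖z‖ = 2 * ϰ := by rw [hϰ]; ring
    linarith
  have hosc : ∀ u ∈ Icc 0 t, |W u - W 0| ≤ ϰ / 8 := by
    intro u hu
    have h1 := hM' 0 ⟨le_rfl, ht⟩
    have h2 := hM' u hu
    have h3 := le_abs_self M'
    rw [Real.norm_eq_abs] at h1 h2
    have h4 : |W u - W 0| ≤ |W u| + |W 0| := abs_sub _ _
    linarith
  refine ⟨(far_point hW hz hϰ0 ht h0 hϰS hosc).1, fun s hs => ?_⟩
  have h := (far_point hW hz hϰ0 hs.1 h0 (hs.2.trans hϰS) fun u hu => hosc u
    ⟨hu.1, hu.2.trans hs.2⟩).2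
  rw [hϰ] at h
  linarith

/-- The expansion of the Loewner map at infinity. -/
theorem gf_expand (hW : Continuous W) {t : ℝ} (ht : 0 ≤ t) :
    ∃ C R : ℝ, 0 ≤ C ∧ 1 ≤ R ∧ ∀ z : ℂ, 0 < z.im → R ≤ ‖z‖ → z ∈ loewnerDomain W t ∧
      ‖gf W z t - z‖ ≤ C / ‖z‖ ∧ ‖z * (gf W z t - z) - ((2 * t : ℝ) : ℂ)‖ ≤ C / ‖z‖ := by
  obtain ⟨R, hR1, hR⟩ := exists_far' hW ht
  obtain ⟨M', hM'⟩ := (isCompact_Icc (a := (0 : ℝ)) (b := t)).exists_bound_of_continuousOn
    hW.continuousOn
  have hM'0 : 0 ≤ |M'| := abs_nonneg _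
  refine ⟨8 * t * (1 + (8 * t + |M'|)), R, by positivity, hR1, fun z hz hzR => ?_⟩
  obtain ⟨hzd, hfar⟩ := hR z hz hzR
  have hz0 : 0 < ‖z‖ := by linarith
  have hz1 : 1 ≤ ‖z‖ := hR1.trans hzR
  have hbd : ∀ s ∈ Icc 0 t, ‖2 / Zf W z s‖ ≤ 8 / ‖z‖ := by
    intro s hs
    have h1 := hfar s hs
    have h2 : 0 < ‖Zf W z s‖ := by linarith [div_pos hz0 (by norm_num : (0 : ℝ) < 4)]
    rw [norm_div, div_le_div_iff₀ h2 hz0]
    simp only [Complex.norm_ofNat]
    linarith
  have hmove : ∀ s ∈ Icc 0 t, ‖gf W z s - z‖ ≤ 8 / ‖z‖ * t := by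
    intro s hs
    have h1 := norm_image_sub_le_of_norm_deriv_le_segment' (f := gf W z)
      (f' := fun s => 2 / Zf W z s) (a := 0) (b := t) (C := 8 / ‖z‖)
      (fun x hx => gf_hasDeriv hzd hx) (fun x hx => hbd x ⟨hx.1, hx.2.le⟩) s hs
    rw [gf_zero hz, sub_zero] at h1
    exact h1.trans (mul_le_mul_of_nonneg_left hs.2 (by positivity))
  have hpos : 0 ≤ 8 * t * (8 * t + |M'|) := by positivity
  refine ⟨hzd, ?_, ?_⟩
  · refine (hmove t ⟨ht, le_rfl⟩).trans ?_
    rw [div_mul_eq_mul_div]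
    refine div_le_div_of_nonneg_right ?_ hz0.le
    nlinarith
  · have h1 := norm_image_sub_le_of_norm_deriv_le_segment'
      (f := fun s => z * gf W z s - ((2 * s : ℝ) : ℂ))
      (f' := fun s => z * (2 / Zf W z s) - 2) (a := 0) (b := t)
      (C := 8 * (8 * t + |M'|) / ‖z‖) (fun x hx => ?_) (fun x hx => ?_) t ⟨ht, le_rfl⟩
    · simp only [gf_zero hz] at h1
      have e1 : z * (gf W z t - z) - ((2 * t : ℝ) : ℂ) =
          z * gf W z t - ((2 * t : ℝ) : ℂ) - (z * z - ((2 * 0 : ℝ) : ℂ)) := by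
        push_cast; ring
      rw [e1]
      refine h1.trans ?_
      rw [sub_zero, div_mul_eq_mul_div]
      refine div_le_div_of_nonneg_right ?_ hz0.le
      nlinarith
    · have h2 := (gf_hasDeriv hzd hx).const_mul z
      have h3 : HasDerivWithinAt (fun s : ℝ => ((2 * s : ℝ) : ℂ)) 2 (Icc 0 t) x := by
        have h4 : HasDerivAt (fun s : ℝ => (2 * s : ℝ)) 2 x := by
          simpa using (hasDerivAt_id x).const_mul 2
        have h5 := h4.ofReal_comp
        exact h5.hasDerivWithinAt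
      exact h2.sub h3
    · have hx' : x ∈ Icc 0 t := ⟨hx.1, hx.2.le⟩
      have h2 := hfar x hx'
      have h3 : 0 < ‖Zf W z x‖ := by linarith [div_pos hz0 (by norm_num : (0 : ℝ) < 4)]
      have h4 : Zf W z x ≠ 0 := norm_pos_iff.1 h3
      have e1 : z * (2 / Zf W z x) - 2 = 2 / Zf W z x * ((z - gf W z x) + (W x : ℂ)) := by
        rw [Zf_eq] at h4 ⊢
        field_simp
        ring
      rw [e1, norm_mul]
      have h5 := hmove x hx'
      have h6 := hM' x hx'
      have h7 : ‖(z - gf W z x) + (W x : ℂ)‖ ≤ 8 * t + |M'| := by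
        refine (norm_add_le _ _).trans ?_
        rw [norm_sub_rev, Complex.norm_real]
        have h8 : 8 / ‖z‖ * t ≤ 8 * t := by
          refine mul_le_mul_of_nonneg_right ?_ ht
          rw [div_le_iff₀ hz0]
          linarith
        have := le_abs_self M'
        linarith
      refine (mul_le_mul (hbd x hx') h7 (norm_nonneg _) (by positivity)).trans (le_of_eq ?_)
      ring

/-- The Loewner map is hydrodynamically normalised, with capacity `2 t`. -/
theorem hydro (hW : Continuous W) {t : ℝ} (ht : 0 ≤ t) :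
    IsHydro (L1.HH \ loewnerDomain W t) (fun z => gf W z t) ∧ hcap (fun z => gf W z t) = 2 * t := by
  obtain ⟨C, R, hC, hR1, hR⟩ := gf_expand hW ht
  have hsub : loewnerDomain W t ⊆ L1.HH := fun z hz => im_pos_of_dom ht hz
  have hK : L1.HH \ (L1.HH \ loewnerDomain W t) = loewnerDomain W t := by
    rw [sdiff_sdiff_right_self]
    exact inf_eq_right.2 hsub
  have hlim0 : Tendsto (fun z : ℂ => C / ‖z‖) (cobounded ℂ ⊓ 𝓟 (loewnerDomain W t)) (𝓝 0) :=
    (tendsto_const_nhds.div_atTop tendsto_norm_cobounded_atTop).mono_left inf_le_left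
  have hev : ∀ᶠ z in cobounded ℂ ⊓ 𝓟 (loewnerDomain W t), 0 < z.im ∧ R ≤ ‖z‖ := by
    have h1 : ∀ᶠ z in cobounded ℂ ⊓ 𝓟 (loewnerDomain W t), R ≤ ‖z‖ :=
      (tendsto_norm_cobounded_atTop.eventually (eventually_ge_atTop R)).filter_mono inf_le_left
    filter_upwards [h1, mem_inf_of_right (mem_principal_self _)] with z hz hz'
    exact ⟨hsub hz', hz⟩
  have hhyd : IsHydro (L1.HH \ loewnerDomain W t) (fun z => gf W z t) := by
    refine ⟨?_, ?_, ?_, ?_, ?_, ?_⟩
    · refine (isBounded_closedBall (x := (0 : ℂ)) (r := R)).subset fun z hz => ?_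
      rw [mem_closedBall_zero_iff]
      by_contra hcon
      push Not at hcon
      exact hz.2 (hR z hz.1 hcon.le).1
    · rw [hK]; exact isOpen_domain_nb ht hW
    · rw [hK]
      have h1 := (Zf_differentiableOn ht hW).add_const (W t : ℂ)
      exact h1.congr fun z _ => by rw [gf]
    · rw [hK]
      intro z hz z' hz' he
      have h1 : Zf W z t = Zf W z' t := by
        have h2 : gf W z t = gf W z' t := he
        rw [gf, gf] at h2
        exact add_right_cancel h2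
      rw [← Finv_Zf ht hW hz, h1, Finv_Zf ht hW hz']
    · rw [hK]
      apply Subset.antisymm
      · rintro _ ⟨z, hz, rfl⟩
        show 0 < (gf W z t).im
        rw [← Zf_im_eq]
        exact Zf_im_pos ht hz
      · intro w hw
        have hw' : 0 < (w - (W t : ℂ)).im := by
          have : 0 < w.im := hw
          simpa using this
        refine ⟨Finv W t (w - W t), Finv_mem ht hW hw', ?_⟩
        show gf W _ t = w
        rw [gf, Zf_Finv ht hW hw']
        ring
    · rw [hK]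
      refine squeeze_zero_norm' ?_ hlim0
      filter_upwards [hev] with z hz
      exact (hR z hz.1 hz.2).2.1
  refine ⟨hhyd, ?_⟩
  have h1 := hhyd.hcap_eq (a := ((2 * t : ℝ) : ℂ)) (by
    rw [hK]
    rw [tendsto_iff_norm_sub_tendsto_zero]
    refine squeeze_zero' (Eventually.of_forall fun _ => norm_nonneg _) ?_ hlim0
    filter_upwards [hev] with z hz
    exact (hR z hz.1 hz.2).2.2)
  rw [h1, Complex.ofReal_re]

/-- **Comparison of capacities.** -/
theorem cap_le (hW : Continuous W) (hW' : Continuous W') {s t : ℝ} (hs : 0 ≤ s) (ht : 0 ≤ t)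
    (h : loewnerDomain W' t ⊆ loewnerDomain W s) : s ≤ t := by
  obtain ⟨h1, h2⟩ := hydro hW hs
  obtain ⟨h3, h4⟩ := hydro hW' ht
  have h5 := L1.s_comp_of L1.s_cap _ _ _ _ h3 h1 (fun z hz => ⟨hz.2.1, fun hc => hz.2.2 (h hc)⟩)
  have h6 := h5.1.hcap_nonneg
  have h7 := h5.2
  rw [h2, h4] at h7
  linarith

end Vale.Agent.P167.H259.C
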