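import Vale.Agent.P167.H259.C.Fin
import Vale.Agent.P167.H199.DT.Out
import Vale.Agent.P167.H947.DT.Gap

/-!
# P167, general `q`: Stage II from Stage I

The curve theorem for the staircase class implies the question for all marked Jordan domains and all
approximations, `1 ≤ q ≤ 4`.
-/

set_option autoImplicit false

namespace Vale.Agent.P167.H259.C

open Vale.Agent.P167.QE (CurveLimitOn wq)

theorem dtOut_all {q : ℝ} (h1 : 1 ≤ q) (h4 : q ≤ 4) : DTOut q :=
  H199.DT.dtOut h1 h4 fun _ _ _ _ _ _ _ _ H =>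
    H947.DT.gap_wq h1 h4 Vale.Agent.P153.R2.R1.i_uinj H

/-- **Stage II from Stage I.** -/
theorem question_stage2 {q : ℝ} (h1 : 1 ≤ q) (h4 : q ≤ 4)
    (hK : CurveLimitOn QT.StairU (Final.kappa q) (wq q)) : Final.Question q :=
  question_C h1 hK (dtOut_all h1 h4)

end Vale.Agent.P167.H259.C
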