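import Vale.Agent.P167.H259.C.Tests

/-!
# P167, general `q`, route (C): curves which pass the same tests

`Tst Wc Fc y x`: no test separates the curves `x`, `y`. `near_pt`: the limit of the two tests at a
point of `y`.
-/

set_option autoImplicit false

open Set Topology Metric Filter

namespace Vale.Agent.P167.H259.C

/-- No test separates `x` and `y`. -/
def Tst (Wc Fc : Set ℂ) (y x : C(unitInterval, ℂ)) : Prop :=
  ∀ KA KB ε, Val Wc Fc KA KB ε →
    (y ∈ Ev KA KB ε → x ∈ EvC KA KB ε) ∧ (x ∈ Ev KA KB ε → y ∈ EvC KA KB ε)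

theorem Tst.symm {Wc Fc : Set ℂ} {x y : C(unitInterval, ℂ)} (h : Tst Wc Fc y x) : Tst Wc Fc x y :=
  fun KA KB ε hv => ⟨(h KA KB ε hv).2, (h KA KB ε hv).1⟩

/-- The compact connected sets of a test. -/
structure Dat (Wc Fc KA KB : Set ℂ) : Prop where
  cA : IsCompact KA
  cB : IsCompact KB
  kA : IsPreconnected KA
  kB : IsPreconnected KB
  disj : Disjoint KA KB
  freeA : Disjoint KA Fc
  wirB : Disjoint KB Wc
  meetA : (KA ∩ Wc).Nonempty
  meetB : (KB ∩ Fc).Nonempty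

theorem Dat.val {Wc Fc KA KB : Set ℂ} (h : Dat Wc Fc KA KB) (hW : IsClosed Wc) (hF : IsClosed Fc) :
    ∃ δ > 0, ∀ ε : ℝ, 0 < ε → ε < δ → Val Wc Fc KA KB ε :=
  exists_val hW hF h.cA h.cB h.kA h.kB h.disj h.freeA h.wirB h.meetA h.meetB

theorem exists_off (x : C(unitInterval, ℂ)) (t : unitInterval) {K : Set ℂ} (hK : IsClosed K)
    (h : ∀ s ≤ t, x s ∉ K) : ∃ δ > 0, ∀ a < δ, ∀ s ≤ t, x s ∉ cthickening a K := by
  have hdis : Disjoint (x '' Iic t) K := by
    rw [Set.disjoint_left]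
    rintro _ ⟨s, hs, rfl⟩
    exact h s hs
  obtain ⟨δ, hδ, h1⟩ := hdis.exists_cthickenings (isCompact_img x t) hK
  refine ⟨δ, hδ, fun a ha s hs hmem => ?_⟩
  exact Set.disjoint_left.1 h1 (self_subset_cthickening _ ⟨s, hs, rfl⟩)
    (cthickening_mono ha.le _ hmem)

theorem near_pt {Wc Fc : Set ℂ} (hW : IsClosed Wc) (hF : IsClosed Fc) {x y : C(unitInterval, ℂ)}
    (hT : Tst Wc Fc y x) {KA₁ KB₁ KA₂ KB₂ N : Set ℂ} (c1 : Dat Wc Fc KA₁ KB₁)
    (c2 : Dat Wc Fc KA₂ KB₂) {t0 : unitInterval} (h1 : y t0 ∈ KB₁) (h2 : y t0 ∈ KA₂)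
    (h3 : ∀ s ≤ t0, y s ∉ KA₁) (h4 : ∀ s ≤ t0, y s ∉ KB₂) (hA : KA₂ ⊆ KA₁ ∪ N)
    (hB : KB₁ ⊆ KB₂ ∪ N) : ∃ s, x s ∈ N ∧ ∀ r < s, x r ∉ KA₁ := by
  -- the first test
  obtain ⟨u, hu1, hu2⟩ : ∃ u, x u ∈ KB₁ ∧ ∀ s < u, x s ∉ KA₁ := by
    obtain ⟨δ₁, hδ₁, H₁⟩ := c1.val hW hF
    obtain ⟨δ₂, hδ₂, H₂⟩ := exists_off y t0 c1.cA.isClosed h3
    set e : ℕ → ℝ := fun n => min δ₁ δ₂ / ((n : ℝ) + 2) with he
    have he0 : ∀ n, 0 < e n := fun n => by positivity
    have helt : ∀ n, e n < min δ₁ δ₂ := fun n => by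
      have h5 : (0 : ℝ) ≤ n := Nat.cast_nonneg n
      exact div_lt_self (by positivity) (by linarith)
    have helim : Tendsto e atTop (𝓝 0) :=
      tendsto_const_nhds.div_atTop (tendsto_atTop_add_const_right _ _ tendsto_natCast_atTop_atTop)
    have hx : ∀ n, x ∈ EvC KA₁ KB₁ (e n) := by
      intro n
      refine (hT KA₁ KB₁ (e n) (H₁ _ (he0 n) ((helt n).trans_le (min_le_left _ _)))).1 ?_
      exact ⟨t0, self_subset_thickening (by have := he0 n; positivity) _ h1,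
        H₂ _ ((helt n).trans_le (min_le_right _ _))⟩
    choose v hv1 hv2 using hx
    obtain ⟨u, -, φ, hφ, hlim⟩ := isCompact_univ.tendsto_subseq fun n => mem_univ (v n)
    have hxlim : Tendsto (fun n => x (v (φ n))) atTop (𝓝 (x u)) :=
      (x.continuous.tendsto u).comp hlim
    refine ⟨u, ?_, ?_⟩
    · have hcl : closure KB₁ = KB₁ := c1.cB.isClosed.closure_eq
      rw [← hcl, closure_eq_iInter_cthickening, mem_iInter₂]
      intro δ hδ
      refine isClosed_cthickening.mem_of_tendsto hxlim ?_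
      have h5 : Tendsto (fun n => 2 * e (φ n)) atTop (𝓝 0) := by
        have := (helim.comp hφ.tendsto_atTop).const_mul 2
        rwa [mul_zero] at this
      filter_upwards [h5.eventually (gt_mem_nhds hδ)] with n hn
      exact cthickening_mono hn.le _ (hv1 (φ n))
    · intro s hs hmem
      obtain ⟨n, hn⟩ := (hlim.eventually (lt_mem_nhds hs)).exists
      exact hv2 _ s hn (self_subset_thickening (he0 _) _ hmem)
  -- the second test
  have key : ∀ v, x v ∈ KB₂ → ∃ s ≤ v, x s ∈ KA₂ := by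
    intro v hv
    by_contra hcon
    push Not at hcon
    obtain ⟨δ₁, hδ₁, H₁⟩ := c2.val hW hF
    obtain ⟨δ₂, hδ₂, H₂⟩ := exists_off x v c2.cA.isClosed hcon
    obtain ⟨δ₃, hδ₃, H₃⟩ := exists_off y t0 c2.cB.isClosed h4
    set e : ℝ := min δ₁ (min δ₂ δ₃) / 4 with he
    have he0 : 0 < e := by positivity
    have e1 := min_le_left δ₁ (min δ₂ δ₃)
    have e2 := (min_le_right δ₁ (min δ₂ δ₃)).trans (min_le_left _ _)
    have e3 := (min_le_right δ₁ (min δ₂ δ₃)).trans (min_le_right _ _)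
    have hxE : x ∈ Ev KA₂ KB₂ e :=
      ⟨v, self_subset_thickening (by positivity) _ hv, H₂ _ (by linarith)⟩
    obtain ⟨w, hw1, hw2⟩ := (hT KA₂ KB₂ e (H₁ _ he0 (by linarith))).2 hxE
    rcases le_or_gt w t0 with h5 | h5
    · exact H₃ (2 * e) (by linarith) w h5 hw1
    · exact hw2 t0 h5 (self_subset_thickening he0 _ h2)
  rcases hB hu1 with h5 | h5
  · obtain ⟨s, hs, hs2⟩ := key u h5
    have hsu : s < u := by
      refine lt_of_le_of_ne hs ?_
      rintro rfl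
      exact Set.disjoint_left.1 c2.disj hs2 h5
    rcases hA hs2 with h6 | h6
    · exact absurd h6 (hu2 s hsu)
    · exact ⟨s, h6, fun r hr => hu2 r (hr.trans hsu)⟩
  · exact ⟨u, h5, hu2⟩

end Vale.Agent.P167.H259.C
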