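import Vale.Agent.P167.H259.C.Sets2
import Vale.Agent.P167.H259.C.Near

/-!
# P167, general `q`, route (C): curves which pass the same tests are equal
-/

set_option autoImplicit false

open Set Filter Topology Metric Vale.Agent.P164 Bornology
open scoped NNReal

namespace Vale.Agent.P167.H259.C

open Vale.Agent.P153.R2 Vale.Agent.P153.R2.ARCX Vale.Agent.P153.R2.DET Vale.Agent.P167.SLE

/-- The curve `x` is the image of the trace `γ` driven by `W`, parametrised by capacity. -/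
structure Cur (ψ : ℂ → ℂ) (b : ℂ) (W : ℝ → ℝ) (γ : ℝ → ℂ) (x : C(unitInterval, ℂ)) : Prop where
  contW : Continuous W
  tr : IsTrace W γ
  one : x 1 = b
  eq : ∀ t : unitInterval, (t : ℝ) < 1 → x t = ψ (γ (t / (1 - t)))

/-- The time of the curve for the time of the trace. -/
noncomputable def tm (t : ℝ) (ht : 0 ≤ t) : unitInterval :=
  ⟨t / (1 + t), by positivity, (div_le_one (by positivity)).2 (by linarith)⟩

theorem tm_lt {t : ℝ} (ht : 0 ≤ t) : ((tm t ht : unitInterval) : ℝ) < 1 := by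
  show t / (1 + t) < 1
  rw [div_lt_one (by positivity)]
  linarith

theorem tm_inv {t : ℝ} (ht : 0 ≤ t) :
    ((tm t ht : unitInterval) : ℝ) / (1 - ((tm t ht : unitInterval) : ℝ)) = t := by
  show t / (1 + t) / (1 - t / (1 + t)) = t
  have : (1 + t) ≠ 0 := by positivity
  field_simp
  ring

theorem Cur.at {ψ : ℂ → ℂ} {b : ℂ} {W : ℝ → ℝ} {γ : ℝ → ℂ} {x : C(unitInterval, ℂ)}
    (h : Cur ψ b W γ x) {t : ℝ} (ht : 0 ≤ t) : x (tm t ht) = ψ (γ t) := by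
  rw [h.eq _ (tm_lt ht), tm_inv]

/-- Earlier times. -/
theorem Cur.before {ψ : ℂ → ℂ} {b : ℂ} {W : ℝ → ℝ} {γ : ℝ → ℂ} {x : C(unitInterval, ℂ)}
    (h : Cur ψ b W γ x) {t : ℝ} (ht : 0 ≤ t) {s : unitInterval} (hs : s ≤ tm t ht) :
    ∃ u ∈ Icc 0 t, x s = ψ (γ u) := by
  have h1 : (s : ℝ) ≤ t / (1 + t) := hs
  have h2 : t / (1 + t) < 1 := tm_lt ht
  have h3 : (s : ℝ) < 1 := h1.trans_lt h2
  refine ⟨(s : ℝ) / (1 - s), ⟨div_nonneg s.2.1 (by linarith), ?_⟩, h.eq s h3⟩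
  rw [div_le_iff₀ (by linarith)]
  rw [le_div_iff₀ (by positivity)] at h1
  linarith

theorem img_cpt {ψ : ℂ → ℂ} {b : ℂ} (hψ : Uni ψ b) {C : Set ℂ} (hC : IsCompact C) (hi : C ⊆ HC) :
    IsCompact (ψ '' C) := hC.image_of_continuousOn (hψ.cont.mono hi)

theorem img_conn {ψ : ℂ → ℂ} {b : ℂ} (hψ : Uni ψ b) {C : Set ℂ} (hC : IsPreconnected C)
    (hi : C ⊆ HC) : IsPreconnected (ψ '' C) := hC.image _ (hψ.cont.mono hi)

theorem img_disj {ψ : ℂ → ℂ} {b : ℂ} (hψ : Uni ψ b) {C D : Set ℂ} (hC : C ⊆ HC) (hD : D ⊆ HC)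
    (h : Disjoint C D) : Disjoint (ψ '' C) (ψ '' D) := by
  rw [Set.disjoint_left]
  rintro _ ⟨z, hz, rfl⟩ ⟨w, hw, he⟩
  exact Set.disjoint_left.1 h hz (hψ.inj (hD hw) (hC hz) he ▸ hw)

theorem img_mem {ψ : ℂ → ℂ} {b : ℂ} (hψ : Uni ψ b) {C : Set ℂ} {z : ℂ} (hC : C ⊆ HC)
    (hz : z ∈ HC) (h : ψ z ∈ ψ '' C) : z ∈ C := by
  obtain ⟨w, hw, he⟩ := h
  exact hψ.inj (hC hw) hz he ▸ hw

/-- The vertical end pieces. -/
theorem exists_leg (x : ℝ) {κ : ℝ} (hκ : 0 < κ) : ∃ L : Set ℂ, IsCompact L ∧ IsPreconnected L ∧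
    L ⊆ ball (x : ℂ) κ ∧ (∀ z ∈ L, z = x ∨ 0 < z.im) ∧ (∃ z ∈ L, 0 < z.im) ∧ (x : ℂ) ∈ L ∧
      L ⊆ HC := by
  set f : ℝ → ℂ := fun s => (x : ℂ) + s * Complex.I with hf
  have hc : Continuous f := by fun_prop
  have him : ∀ s, (f s).im = s := fun s => by simp [hf]
  refine ⟨f '' Icc 0 (κ / 2), isCompact_Icc.image hc, isPreconnected_Icc.image _ hc.continuousOn,
    ?_, ?_, ⟨f (κ / 2), ⟨κ / 2, ⟨by positivity, le_rfl⟩, rfl⟩, by rw [him]; positivity⟩,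
    ⟨0, ⟨le_rfl, by positivity⟩, by simp [hf]⟩, ?_⟩
  · rintro _ ⟨s, hs, rfl⟩
    rw [mem_ball, dist_eq_norm, hf]
    simp only [add_sub_cancel_left, norm_mul, Complex.norm_real, Complex.norm_I, mul_one]
    rw [Real.norm_of_nonneg hs.1]
    linarith [hs.2]
  · rintro _ ⟨s, hs, rfl⟩
    rcases hs.1.eq_or_lt with h0 | h0
    · left
      simp [hf, ← h0]
    · right
      rw [him]
      exact h0
  · rintro _ ⟨s, hs, rfl⟩
    show 0 ≤ (f s).im
    rw [him]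
    exact hs.1

theorem dom_HC {W : ℝ → ℝ} {t : ℝ} (ht : 0 ≤ t) : loewnerDomain W t ⊆ HC := fun _ hz =>
  (im_pos_of_dom ht hz).le

/-- A test from compact connected sets of the half-plane. -/
theorem dat_of {ψ : ℂ → ℂ} {b : ℂ} (hψ : Uni ψ b) {Wc Fc : Set ℂ} {σ : ℝ}
    (hWc : Wc = insert b ((fun x : ℝ => ψ x) '' {x | σ * x ≤ 0}))
    (hFc : Fc = insert b ((fun x : ℝ => ψ x) '' {x | 0 ≤ σ * x})) {CA CB : Set ℂ} {xA xB : ℝ}
    (cA : IsCompact CA) (cB : IsCompact CB) (kA : IsPreconnected CA) (kB : IsPreconnected CB)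
    (hd : Disjoint CA CB) (hA : CA ⊆ HC) (hB : CB ⊆ HC) (hA' : ∀ z ∈ CA, z = xA ∨ 0 < z.im)
    (hB' : ∀ z ∈ CB, z = xB ∨ 0 < z.im) (mA : (xA : ℂ) ∈ CA) (mB : (xB : ℂ) ∈ CB)
    (hxA : σ * xA < 0) (hxB : 0 < σ * xB) : Dat Wc Fc (ψ '' CA) (ψ '' CB) := by
  have hreal : ∀ x : ℝ, (x : ℂ) ∈ HC := fun x => by simp [HC]
  refine ⟨img_cpt hψ cA hA, img_cpt hψ cB hB, img_conn hψ kA hA, img_conn hψ kB hB,
    img_disj hψ hA hB hd, ?_, ?_, ⟨ψ xA, ⟨_, mA, rfl⟩, ?_⟩, ⟨ψ xB, ⟨_, mB, rfl⟩, ?_⟩⟩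
  · rw [Set.disjoint_left]
    rintro _ ⟨z, hz, rfl⟩ h
    rw [hFc] at h
    rcases h with h | ⟨x, hx, he⟩
    · exact hψ.ne z (hA hz) h
    · have h1 := hψ.inj (hreal x) (hA hz) he
      rcases hA' z hz with h2 | h2
      · rw [h2] at h1
        have h3 : x = xA := by exact_mod_cast h1
        have h4 : 0 ≤ σ * x := hx
        rw [h3] at h4
        linarith
      · rw [← h1] at h2
        simp at h2
  · rw [Set.disjoint_left]
    rintro _ ⟨z, hz, rfl⟩ h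
    rw [hWc] at h
    rcases h with h | ⟨x, hx, he⟩
    · exact hψ.ne z (hB hz) h
    · have h1 := hψ.inj (hreal x) (hB hz) he
      rcases hB' z hz with h2 | h2
      · rw [h2] at h1
        have h3 : x = xB := by exact_mod_cast h1
        have h4 : σ * x ≤ 0 := hx
        rw [h3] at h4
        linarith
      · rw [← h1] at h2
        simp at h2
  · rw [hWc]
    exact Or.inr ⟨xA, hxA.le, rfl⟩
  · rw [hFc]
    exact Or.inr ⟨xB, hxB.le, rfl⟩

section main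

variable {ψ : ℂ → ℂ} {b : ℂ} {Wc Fc : Set ℂ} {W W' : ℝ → ℝ} {γ γ' : ℝ → ℂ}
  {x y : C(unitInterval, ℂ)}

/-- **One special time, one neighbourhood.** -/
theorem near_special (hψ : Uni ψ b) (hW : IsClosed Wc) (hF : IsClosed Fc)
    (har : Arcs ψ b Wc Fc) (hy : Cur ψ b W γ y) (hT : Tst Wc Fc y x) {t : ℝ} (ht0 : 0 < t)
    (hsp : ∀ r' : ℝ, 0 ≤ r' → r' < t → γ t ∈ loewnerDomain W r') (hpim : 0 < (γ t).im)
    {η : ℝ} (hη : 0 < η) {Q : Set ℂ} (hQ : IsCompact Q) (hQd : Q ⊆ loewnerDomain W t) :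
    ∃ s, x s ∈ ψ '' (closedBall (γ t) η ∩ HC) ∧ ∀ r < s, x r ∉ ψ '' Q := by
  have ht : 0 ≤ t := ht0.le
  obtain ⟨σ, hσ, hWc, hFc⟩ := har
  have hσσ : σ * σ = 1 := by rcases hσ with h1 | h1 <;> rw [h1] <;> norm_num
  obtain ⟨X, hX, κ, hκ, H⟩ := exists_sets hy.contW hy.tr ht0 hsp hpim hσ hη hQ hQd
  set xA : ℝ := -(σ * X) with hxA
  set xB : ℝ := σ * X with hxB
  have eA : σ * xA = -X := by rw [hxA]; linear_combination (-X) * hσσ
  have eB : σ * xB = X := by rw [hxB]; linear_combination X * hσσ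
  obtain ⟨LA, cLA, pLA, bLA, iLA, nLA, mLA, hLA⟩ := exists_leg xA hκ
  obtain ⟨LB, cLB, pLB, bLB, iLB, nLB, mLB, hLB⟩ := exists_leg xB hκ
  obtain ⟨CA₁, CB₁, CA₂, CB₂, ⟨c1, c2, c3, c4⟩, ⟨p1, p2, p3, p4⟩, ⟨s1, s4, s3, s2⟩,
    ⟨m3, m2, m1⟩, ⟨d1, d2⟩, ⟨u1, u2⟩, dA, dB⟩ :=
    H xA xB eA.le eB.ge LA LB cLA pLA cLB pLB bLA bLB iLA iLB nLA nLB
  have hdom := dom_HC (W := W) ht
  have hins : insert (γ t) (loewnerDomain W t) ⊆ HC := insert_subset hpim.le hdom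
  have ipos : ∀ z ∈ loewnerDomain W t, 0 < z.im := fun z hz => im_pos_of_dom ht hz
  have ipos' : ∀ z ∈ insert (γ t) (loewnerDomain W t), 0 < z.im := by
    rintro z (rfl | hz)
    · exact hpim
    · exact ipos z hz
  have lab : ∀ {C L : Set ℂ} {x0 : ℝ}, (∀ z ∈ C, 0 < z.im) → (∀ z ∈ L, z = x0 ∨ 0 < z.im) →
      ∀ z ∈ C ∪ L, z = x0 ∨ 0 < z.im := by
    rintro C L x0 h1 h2 z (hz | hz)
    · exact Or.inr (h1 z hz)
    · exact h2 z hz
  have D1 : Dat Wc Fc (ψ '' (CA₁ ∪ LA)) (ψ '' (CB₁ ∪ LB)) :=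
    dat_of hψ hWc hFc (c1.union cLA) (c2.union cLB) p1 p2 d1
      (union_subset (s1.trans hdom) hLA) (union_subset (s2.trans hins) hLB)
      (lab (fun z hz => ipos z (s1 hz)) iLA) (lab (fun z hz => ipos' z (s2 hz)) iLB)
      (Or.inr mLA) (Or.inr mLB) (by linarith) (by linarith)
  have D2 : Dat Wc Fc (ψ '' (CA₂ ∪ LA)) (ψ '' (CB₂ ∪ LB)) :=
    dat_of hψ hWc hFc (c3.union cLA) (c4.union cLB) p3 p4 d2
      (union_subset (s3.trans hins) hLA) (union_subset (s4.trans hdom) hLB)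
      (lab (fun z hz => ipos' z (s3 hz)) iLA) (lab (fun z hz => ipos z (s4 hz)) iLB)
      (Or.inr mLA) (Or.inr mLB) (by linarith) (by linarith)
  have hoff : ∀ {C L : Set ℂ}, C ⊆ loewnerDomain W t → L ⊆ HC → Disjoint L (γ '' Icc 0 t) →
      ∀ s ≤ tm t ht, y s ∉ ψ '' (C ∪ L) := by
    intro C L h1 h2 h3 s hs hmem
    obtain ⟨u, hu, he⟩ := hy.before ht hs
    rw [he] at hmem
    have h4 := img_mem hψ (union_subset (h1.trans hdom) h2) (hy.tr.im_nonneg u hu.1) hmem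
    rcases h4 with h4 | h4
    · exact disj_trace hy.tr hu.1 hu.2 (h1 h4)
    · exact Set.disjoint_left.1 h3 h4 ⟨u, hu, rfl⟩
  have himg : ∀ {C C' L : Set ℂ}, C ⊆ C' ∪ closedBall (γ t) η → C ⊆ HC →
      ψ '' (C ∪ L) ⊆ ψ '' (C' ∪ L) ∪ ψ '' (closedBall (γ t) η ∩ HC) := by
    rintro C C' L h1 h2 _ ⟨z, hz | hz, rfl⟩
    · rcases h1 hz with h3 | h3
      · exact Or.inl ⟨z, Or.inl h3, rfl⟩
      · exact Or.inr ⟨z, ⟨h3, h2 hz⟩, rfl⟩
    · exact Or.inl ⟨z, Or.inr hz, rfl⟩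
  obtain ⟨s, h1, h2⟩ := near_pt hW hF hT (N := ψ '' (closedBall (γ t) η ∩ HC)) D1 D2
    (t0 := tm t ht) (by rw [hy.at ht]; exact ⟨_, Or.inl m2, rfl⟩)
    (by rw [hy.at ht]; exact ⟨_, Or.inl m3, rfl⟩) (hoff s1 hLA dA) (hoff s4 hLB dB)
    (himg u1 (s3.trans hins)) (himg u2 (s2.trans hins))
  exact ⟨s, h1, fun r hr hmem => h2 r hr (image_mono (m1.trans subset_union_left) hmem)⟩

/-- **One special time.** -/
theorem at_special (hψ : Uni ψ b) (hW : IsClosed Wc) (hF : IsClosed Fc)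
    (har : Arcs ψ b Wc Fc) (hy : Cur ψ b W γ y) (hT : Tst Wc Fc y x) {t : ℝ} (ht0 : 0 < t)
    (hsp : ∀ r' : ℝ, 0 ≤ r' → r' < t → γ t ∈ loewnerDomain W r') (hpim : 0 < (γ t).im) :
    ∃ s, x s = ψ (γ t) ∧ ∀ r < s, x r ∉ ψ '' loewnerDomain W t := by
  have ht : 0 ≤ t := ht0.le
  set D := loewnerDomain W t with hD
  have hDo : IsOpen D := ARCX.isOpen_dom hy.contW ht
  have hDne : (Dᶜ : Set ℂ).Nonempty := ⟨γ t, disj_trace hy.tr ht le_rfl⟩
  set Q : ℕ → Set ℂ := fun n => closedBall 0 (n : ℝ) ∩ {z | 1 / ((n : ℝ) + 1) ≤ infDist z Dᶜ}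
    with hQ
  have hQc : ∀ n, IsCompact (Q n) := fun n =>
    (isCompact_closedBall 0 (n : ℝ)).inter_right
      (isClosed_le continuous_const (continuous_infDist_pt _))
  have hQD : ∀ n, Q n ⊆ D := by
    intro n z hz
    by_contra hcon
    have h1 : infDist z Dᶜ = 0 := infDist_zero_of_mem hcon
    have h2 : 1 / ((n : ℝ) + 1) ≤ infDist z Dᶜ := hz.2
    rw [h1] at h2
    have : 0 < 1 / ((n : ℝ) + 1) := by positivity
    linarith
  have hQe : ∀ z ∈ D, ∀ᶠ n in atTop, z ∈ Q n := by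
    intro z hz
    have h1 : 0 < infDist z Dᶜ :=
      (hDo.isClosed_compl.notMem_iff_infDist_pos hDne).1 (fun h => h hz)
    have h2 : Tendsto (fun n : ℕ => 1 / ((n : ℝ) + 1)) atTop (𝓝 0) :=
      tendsto_one_div_add_atTop_nhds_zero_nat
    filter_upwards [h2.eventually (gt_mem_nhds h1),
      tendsto_natCast_atTop_atTop.eventually_ge_atTop ‖z‖] with n h3 h4
    exact ⟨by simpa using h4, h3.le⟩
  have hstep : ∀ n : ℕ, ∃ s, x s ∈ ψ '' (closedBall (γ t) (1 / ((n : ℝ) + 1)) ∩ HC) ∧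
      ∀ r < s, x r ∉ ψ '' Q n := fun n =>
    near_special hψ hW hF har hy hT ht0 hsp hpim (by positivity) (hQc n) (hQD n)
  choose s hs1 hs2 using hstep
  choose z hz hzs using hs1
  obtain ⟨s0, -, φ, hφ, hlim⟩ := isCompact_univ.tendsto_subseq fun n => mem_univ (s n)
  refine ⟨s0, ?_, ?_⟩
  · have h1 : Tendsto (fun n => x (s (φ n))) atTop (𝓝 (x s0)) := (x.continuous.tendsto s0).comp hlim
    have h2 : Tendsto z atTop (𝓝[HC] (γ t)) := by
      refine tendsto_nhdsWithin_iff.2 ⟨?_, Eventually.of_forall fun n => (hz n).2⟩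
      rw [tendsto_iff_dist_tendsto_zero]
      exact squeeze_zero (fun n => dist_nonneg) (fun n => (hz n).1)
        tendsto_one_div_add_atTop_nhds_zero_nat
    have h3 : Tendsto (fun n => ψ (z (φ n))) atTop (𝓝 (ψ (γ t))) :=
      (hψ.cont (γ t) (show 0 ≤ (γ t).im from hpim.le)).tendsto.comp (h2.comp hφ.tendsto_atTop)
    refine tendsto_nhds_unique h1 ?_
    refine h3.congr fun n => ?_
    exact hzs (φ n)
  · rintro r hr ⟨w, hw, he⟩
    obtain ⟨n, h1, h2⟩ := ((hlim.eventually (lt_mem_nhds hr)).and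
      (hφ.tendsto_atTop.eventually (hQe w hw))).exists
    exact hs2 _ r h1 ⟨w, h2, he⟩

/-- The comparison of the capacities. -/
theorem time_le (hψ : Uni ψ b) (hW : IsClosed Wc) (hF : IsClosed Fc)
    (har : Arcs ψ b Wc Fc) (hy : Cur ψ b W γ y) (hx : Cur ψ b W' γ' x) (hT : Tst Wc Fc y x)
    {t : ℝ} (ht0 : 0 < t)
    (hsp : ∀ r' : ℝ, 0 ≤ r' → r' < t → γ t ∈ loewnerDomain W r') (hpim : 0 < (γ t).im) :
    ∃ s, 0 ≤ s ∧ s ≤ t ∧ γ' s = γ t := by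
  have ht : 0 ≤ t := ht0.le
  obtain ⟨s0, h1, h2⟩ := at_special hψ hW hF har hy hT ht0 hsp hpim
  have hs1 : (s0 : ℝ) < 1 := by
    refine lt_of_le_of_ne s0.2.2 fun h => ?_
    have h3 : s0 = 1 := Subtype.ext h
    rw [h3, hx.one] at h1
    exact hψ.ne _ (show 0 ≤ (γ t).im from hpim.le) h1.symm
  set s : ℝ := (s0 : ℝ) / (1 - s0) with hs
  have hs0 : 0 ≤ s := div_nonneg s0.2.1 (by linarith)
  have hγ : γ' s = γ t := by
    rw [hx.eq s0 hs1] at h1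
    exact hψ.inj (hx.tr.im_nonneg s hs0) (show 0 ≤ (γ t).im from hpim.le) h1
  refine ⟨s, hs0, ?_, hγ⟩
  have hdis : ∀ u ∈ Icc 0 s, γ' u ∉ loewnerDomain W t := by
    intro u hu hmem
    rcases hu.2.eq_or_lt with h3 | h3
    · rw [h3, hγ] at hmem
      exact disj_trace hy.tr ht le_rfl hmem
    · have h4 : tm u hu.1 < s0 := by
        show u / (1 + u) < (s0 : ℝ)
        rw [div_lt_iff₀ (by linarith [hu.1])]
        rw [hs, lt_div_iff₀ (by linarith)] at h3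
        linarith
      exact h2 _ h4 ⟨_, hmem, (hx.at hu.1).symm⟩
  refine cap_le hx.contW hy.contW hs0 ht ?_
  intro w hw
  rw [hx.tr.domain_eq s hs0]
  have hsub : loewnerDomain W t ⊆ {z : ℂ | 0 < z.im} \ γ' '' Icc 0 s := by
    intro z hz
    refine ⟨im_pos_of_dom ht hz, ?_⟩
    rintro ⟨u, hu, rfl⟩
    exact hdis u hu hz
  exact ⟨hsub hw, fun hb => HULL.not_bounded_dom hy.contW
    (hb.subset ((HULL.isPreconnected_dom hy.contW ht).subset_connectedComponentIn hw hsub))⟩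

/-- The traces agree at special times. -/
theorem eq_special (hψ : Uni ψ b) (hW : IsClosed Wc) (hF : IsClosed Fc)
    (har : Arcs ψ b Wc Fc) (hy : Cur ψ b W γ y) (hx : Cur ψ b W' γ' x) (hT : Tst Wc Fc y x)
    {t : ℝ} (ht0 : 0 < t)
    (hsp : ∀ r' : ℝ, 0 ≤ r' → r' < t → γ t ∈ loewnerDomain W r') (hpim : 0 < (γ t).im) :
    γ' t = γ t := by
  obtain ⟨s, hs0, hst, hγ⟩ := time_le hψ hW hF har hy hx hT ht0 hsp hpim
  -- the first visit
  set S : Set ℝ := {u | 0 ≤ u ∧ u ≤ s ∧ γ' u = γ t} with hS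
  have hcl : IsClosed S := by
    have h1 : ContinuousOn γ' (Icc 0 s) := hx.tr.cont.mono fun u hu => hu.1
    have h2 : IsClosed (Icc 0 s ∩ γ' ⁻¹' {γ t}) :=
      h1.preimage_isClosed_of_isClosed isClosed_Icc isClosed_singleton
    convert h2 using 1
    ext u
    exact ⟨fun h => ⟨⟨h.1, h.2.1⟩, h.2.2⟩, fun h => ⟨h.1.1, h.1.2, h.2⟩⟩
  have hbd : BddBelow S := ⟨0, fun u hu => hu.1⟩
  have hne : S.Nonempty := ⟨s, hs0, le_rfl, hγ⟩
  obtain ⟨u0, hus, huγ⟩ := hcl.csInf_mem hne hbd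
  set u : ℝ := sInf S with hu
  have hmin : ∀ v, 0 ≤ v → v < u → γ' v ≠ γ t := by
    intro v hv hvu he
    exact absurd (csInf_le hbd (show v ∈ S from ⟨hv, hvu.le.trans hus, he⟩)) (not_le.2 hvu)
  have hupos : 0 < u := by
    rcases u0.eq_or_lt with h1 | h1
    · exfalso
      rw [← h1, hx.tr.start] at huγ
      rw [← huγ] at hpim
      simp at hpim
    · exact h1
  have him' : 0 < (γ' u).im := by rw [huγ]; exact hpim
  have hsp' : ∀ r' : ℝ, 0 ≤ r' → r' < u → γ' u ∈ loewnerDomain W' r' := fun r' h1 h2 =>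
    first_visit_dom hx.contW hx.tr him' (fun v hv hvu => by rw [huγ]; exact hmin v hv hvu) h1 h2
  obtain ⟨t', ht'0, ht'u, hγ'⟩ := time_le hψ hW hF har hx hy hT.symm hupos hsp' him'
  have h3 : γ t' = γ t := hγ'.trans huγ
  have h4 : t' = t := by
    by_contra hcon
    have h5 : t' < t := lt_of_le_of_ne (ht'u.trans (hus.trans hst)) hcon
    have h6 := hsp t' ht'0 h5
    rw [← h3] at h6
    exact disj_trace hy.tr ht'0 le_rfl h6
  have h7 : u = t := le_antisymm (hus.trans hst) (h4 ▸ ht'u)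
  rw [← h7]
  rw [huγ, h7]

/-- **Curves which pass the same tests are equal.** -/
theorem eq_of_tst (hψ : Uni ψ b) (hW : IsClosed Wc) (hF : IsClosed Fc)
    (har : Arcs ψ b Wc Fc) (hy : Cur ψ b W γ y) (hx : Cur ψ b W' γ' x) (hT : Tst Wc Fc y x) :
    x = y := by
  have hdense : ∀ s : ℝ, 0 ≤ s → γ' s = γ s := by
    intro s hs
    by_contra hcon
    have hd : 0 < dist (γ' s) (γ s) := dist_pos.2 hcon
    have h1 : ContinuousWithinAt (fun u => dist (γ' u) (γ u)) (Ici 0) s :=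
      Filter.Tendsto.dist (hx.tr.cont s hs) (hy.tr.cont s hs)
    obtain ⟨δ, hδ, h2⟩ := Metric.continuousWithinAt_iff.1 h1 _ hd
    obtain ⟨r, hr, him, hsp⟩ := exists_special hy.contW hy.tr hs (t := s + δ / 2) (by linarith)
    have h3 := eq_special hψ hW hF har hy hx hT (hs.trans_lt hr.1) hsp him
    have h4 := h2 (x := r) (hs.trans hr.1.le) (by
      rw [Real.dist_eq, abs_of_pos (by linarith [hr.1])]
      linarith [hr.2])
    rw [h3, dist_self, Real.dist_eq, zero_sub, abs_neg, abs_of_pos hd] at h4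
    exact lt_irrefl _ h4
  ext t
  by_cases ht : (t : ℝ) < 1
  · rw [hx.eq t ht, hy.eq t ht, hdense _ (div_nonneg t.2.1 (by linarith))]
  · have h3 : t = 1 := Subtype.ext (le_antisymm t.2.2 (not_lt.1 ht))
    rw [h3, hx.one, hy.one]

end main

end Vale.Agent.P167.H259.C
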