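import Vale.Agent.P167.H259.C.Inj

/-!
# P167, general `q`, route (C): the law of the curve is determined by the tests

`law_eq`: two laws of curves (capacity parametrised images of traces of continuous drivers) which are
comparable (`Cmp`) are equal.
-/

set_option autoImplicit false

open MeasureTheory Set Filter Topology Metric Vale.Agent.P164 Bornology
open scoped NNReal

namespace Vale.Agent.P167.H259.C

open Vale.Agent.P153.R2 Vale.Agent.P153.R2.ARCX Vale.Agent.P153.R2.DET Vale.Agent.P167.SLE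

/-- The parameters of the tests. -/
def Par (Wc Fc : Set ℂ) : Type := {τ : Set ℂ × Set ℂ × ℝ // Val Wc Fc τ.1 τ.2.1 τ.2.2}

/-- The event. -/
def PE {Wc Fc : Set ℂ} (τ : Par Wc Fc) : Set C(unitInterval, ℂ) := Ev τ.1.1 τ.1.2.1 τ.1.2.2

/-- The closed bound. -/
def PC {Wc Fc : Set ℂ} (τ : Par Wc Fc) : Set C(unitInterval, ℂ) := EvC τ.1.1 τ.1.2.1 τ.1.2.2

/-- The curves. -/
def Gd (ψ : ℂ → ℂ) (b : ℂ) : Set C(unitInterval, ℂ) := {x | ∃ W γ, Cur ψ b W γ x}

/-- Countably many tests separate the curves. -/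
theorem exists_countable {ψ : ℂ → ℂ} {b : ℂ} (hψ : Uni ψ b) {Wc Fc : Set ℂ} (hW : IsClosed Wc)
    (hF : IsClosed Fc) (har : Arcs ψ b Wc Fc) :
    ∃ T : Set (Par Wc Fc), T.Countable ∧ ∀ x ∈ Gd ψ b, ∀ y ∈ Gd ψ b,
      (∀ τ ∈ T, (x ∈ PE τ ↔ y ∈ PE τ)) → x = y := by
  set U : Par Wc Fc → Set (C(unitInterval, ℂ) × C(unitInterval, ℂ)) := fun τ =>
    PE τ ×ˢ (PC τ)ᶜ ∪ (PC τ)ᶜ ×ˢ PE τ with hU
  have hUo : ∀ τ, IsOpen (U τ) := fun τ =>
    ((isOpen_ev _ _ _).prod (isClosed_evC _ _ _).isOpen_compl).union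
      ((isClosed_evC _ _ _).isOpen_compl.prod (isOpen_ev _ _ _))
  obtain ⟨T, hT, hTU⟩ := TopologicalSpace.isOpen_iUnion_countable U hUo
  refine ⟨T, hT, ?_⟩
  rintro x ⟨W, γ, hx⟩ y ⟨W', γ', hy⟩ hxy
  by_contra hne
  have h1 : (x, y) ∈ ⋃ τ, U τ := by
    by_contra hcon
    apply hne
    refine eq_of_tst hψ hW hF har hy hx ?_
    intro KA KB ε hv
    constructor
    · intro hy'
      by_contra hx'
      exact hcon (mem_iUnion.2 ⟨⟨(KA, KB, ε), hv⟩, Or.inr ⟨hx', hy'⟩⟩)
    · intro hx'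
      by_contra hy'
      exact hcon (mem_iUnion.2 ⟨⟨(KA, KB, ε), hv⟩, Or.inl ⟨hx', hy'⟩⟩)
  rw [← hTU] at h1
  obtain ⟨τ, hτ, h2⟩ := mem_iUnion₂.1 h1
  rcases h2 with ⟨h3, h4⟩ | ⟨h3, h4⟩
  · exact h4 (ev_sub_evC _ _ _ ((hxy τ hτ).1 h3))
  · exact h3 (ev_sub_evC _ _ _ ((hxy τ hτ).2 h4))

section law

variable [MeasurableSpace C(unitInterval, ℂ)] [BorelSpace C(unitInterval, ℂ)]

/-- The outcomes of the tests in `T`. -/
def fT {Wc Fc : Set ℂ} (T : Set (Par Wc Fc)) : C(unitInterval, ℂ) → (T → Prop) :=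
  fun x τ => x ∈ PE τ.1

theorem measurable_fT {Wc Fc : Set ℂ} (T : Set (Par Wc Fc)) : Measurable (fT T) := by
  refine measurable_pi_lambda _ fun τ => ?_
  exact measurable_mem.2 ((isOpen_ev _ _ _).measurableSet)

omit [MeasurableSpace C(unitInterval, ℂ)] [BorelSpace C(unitInterval, ℂ)] in
theorem gen_pi (T : Type) [Countable T] : (MeasurableSpace.pi : MeasurableSpace (T → Prop)) =
    MeasurableSpace.generateFrom {s | ∃ F : Finset T, s = {g | ∀ τ ∈ F, g τ}} := by
  set C : Set (Set (T → Prop)) := {s | ∃ F : Finset T, s = {g | ∀ τ ∈ F, g τ}} with hC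
  have hev : ∀ τ : T, MeasurableSet[MeasurableSpace.generateFrom C] {g : T → Prop | g τ} := by
    intro τ
    refine MeasurableSpace.measurableSet_generateFrom ⟨{τ}, ?_⟩
    ext g
    simp
  refine le_antisymm ?_ ?_
  · refine iSup_le fun τ => ?_
    rintro _ ⟨s, -, rfl⟩
    have h2 : (fun g : T → Prop => g τ) ⁻¹' s =
        ({g : T → Prop | g τ} ∩ {_g : T → Prop | True ∈ s}) ∪
          ({g : T → Prop | g τ}ᶜ ∩ {_g : T → Prop | False ∈ s}) := by
      ext g
      by_cases hg : g τ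
      · have e : g τ = True := eq_true hg
        constructor
        · intro h3
          left
          refine ⟨hg, ?_⟩
          show True ∈ s
          rw [← e]
          exact h3
        · rintro (⟨-, h3⟩ | ⟨h3, -⟩)
          · show g τ ∈ s
            rw [e]
            exact h3
          · exact absurd hg h3
      · have e : g τ = False := eq_false hg
        constructor
        · intro h3
          right
          refine ⟨hg, ?_⟩
          show False ∈ s
          rw [← e]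
          exact h3
        · rintro (⟨h3, -⟩ | ⟨-, h3⟩)
          · exact absurd h3 hg
          · show g τ ∈ s
            rw [e]
            exact h3
    rw [h2]
    exact MeasurableSet.union ((hev τ).inter (MeasurableSet.const _))
      ((hev τ).compl.inter (MeasurableSet.const _))
  · refine MeasurableSpace.generateFrom_le ?_
    rintro _ ⟨F, rfl⟩
    have h2 : {g : T → Prop | ∀ τ ∈ F, g τ} = ⋂ τ ∈ F, {g : T → Prop | g τ} := by
      ext g
      simp
    rw [h2]
    refine MeasurableSet.biInter F.countable_toSet fun τ _ => ?_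
    exact measurableSet_setOfPred.2 (measurable_pi_apply τ)

/-- Comparable laws give the same joint law to countably many tests. -/
theorem map_eq {Wc Fc : Set ℂ} {m m' : Measure C(unitInterval, ℂ)}
    [IsProbabilityMeasure m] [IsProbabilityMeasure m'] (hc : Cmp Wc Fc m m')
    {T : Set (Par Wc Fc)} (hT : T.Countable) : m.map (fT T) = m'.map (fT T) := by
  have : Countable T := hT
  have hfm := measurable_fT T
  set C : Set (Set (T → Prop)) := {s | ∃ F : Finset T, s = {g | ∀ τ ∈ F, g τ}} with hC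
  have hpi : IsPiSystem C := by
    classical
    rintro _ ⟨F, rfl⟩ _ ⟨F', rfl⟩ -
    refine ⟨F ∪ F', ?_⟩
    ext g
    constructor
    · rintro ⟨h2, h3⟩ τ hτ
      rcases Finset.mem_union.1 hτ with h4 | h4
      · exact h2 τ h4
      · exact h3 τ h4
    · intro h2
      exact ⟨fun τ hτ => h2 τ (Finset.mem_union_left _ hτ),
        fun τ hτ => h2 τ (Finset.mem_union_right _ hτ)⟩
  have hgen := gen_pi T
  have := Measure.isProbabilityMeasure_map (μ := m) hfm.aemeasurable
  have := Measure.isProbabilityMeasure_map (μ := m') hfm.aemeasurable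
  refine ext_of_generate_finite C hgen hpi ?_ (by simp)
  rintro _ ⟨F, rfl⟩
  have hms : MeasurableSet {g : T → Prop | ∀ τ ∈ F, g τ} := by
    rw [hgen]
    exact MeasurableSpace.measurableSet_generateFrom ⟨F, rfl⟩
  rw [Measure.map_apply hfm hms, Measure.map_apply hfm hms]
  have h2 : fT T ⁻¹' {g : T → Prop | ∀ τ ∈ F, g τ} =
      ⋂ j : F, Ev j.1.1.1.1 j.1.1.1.2.1 j.1.1.1.2.2 := by
    ext x
    simp only [mem_preimage, mem_iInter]
    exact ⟨fun h j => h j.1 j.2, fun h τ hτ => h ⟨τ, hτ⟩⟩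
  rw [h2]
  exact le_antisymm (meas_le hc.1 fun j : F => j.1.1.2) (meas_le hc.2 fun j : F => j.1.1.2)

/-- Two measures on a set on which the tests separate points. -/
theorem eq_of_map {Wc Fc : Set ℂ} {T : Set (Par Wc Fc)} (hT : T.Countable)
    {m m' : Measure C(unitInterval, ℂ)} {G : Set C(unitInterval, ℂ)} (hGm : MeasurableSet G)
    (h1 : m Gᶜ = 0) (h1' : m' Gᶜ = 0) (hinj : InjOn (fT T) G)
    (hmap : m.map (fT T) = m'.map (fT T)) : m = m' := by
  have : Countable T := hT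
  have hfm := measurable_fT T
  refine Measure.ext fun E hE => ?_
  have hEG : MeasurableSet (E ∩ G) := hE.inter hGm
  have him : MeasurableSet (fT T '' (E ∩ G)) :=
    hEG.image_of_measurable_injOn hfm (hinj.mono inter_subset_right)
  have hfin : ∀ μ : Measure C(unitInterval, ℂ), μ Gᶜ = 0 →
      μ E = (μ.map (fT T)) (fT T '' (E ∩ G)) := by
    intro μ hμ
    rw [Measure.map_apply hfm him]
    have h2 : fT T ⁻¹' (fT T '' (E ∩ G)) ∩ G = E ∩ G := by
      ext x
      constructor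
      · rintro ⟨⟨y, hy, he⟩, hx⟩
        have := hinj hy.2 hx he
        exact this ▸ hy
      · intro hx
        exact ⟨⟨x, hx, rfl⟩, hx.2⟩
    calc μ E = μ (E ∩ G) := (measure_inter_conull hμ).symm
      _ = μ (fT T ⁻¹' (fT T '' (E ∩ G)) ∩ G) := by rw [h2]
      _ = μ (fT T ⁻¹' (fT T '' (E ∩ G))) := measure_inter_conull hμ
  rw [hfin m h1, hfin m' h1', hmap]

omit [MeasurableSpace C(unitInterval, ℂ)] [BorelSpace C(unitInterval, ℂ)] in
theorem inj_of_sep {ψ : ℂ → ℂ} {b : ℂ} {Wc Fc : Set ℂ} {T : Set (Par Wc Fc)}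
    (hsep : ∀ x ∈ Gd ψ b, ∀ y ∈ Gd ψ b, (∀ τ ∈ T, (x ∈ PE τ ↔ y ∈ PE τ)) → x = y) :
    InjOn (fT T) (Gd ψ b) := by
  intro x hx y hy he
  refine hsep x hx y hy fun τ hτ => ?_
  have := congrFun he ⟨τ, hτ⟩
  exact iff_of_eq this

/-- **The law of the curve is determined by the tests.** -/
theorem law_eq {ψ : ℂ → ℂ} {b : ℂ} (hψ : Uni ψ b) {Wc Fc : Set ℂ} (hW : IsClosed Wc)
    (hF : IsClosed Fc) (har : Arcs ψ b Wc Fc) {m m' : Measure C(unitInterval, ℂ)}
    [IsProbabilityMeasure m] [IsProbabilityMeasure m'] (hm : ∀ᵐ x ∂m, x ∈ Gd ψ b)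
    (hm' : ∀ᵐ x ∂m', x ∈ Gd ψ b) (hc : Cmp Wc Fc m m') : m = m' := by
  obtain ⟨T, hT, hsep⟩ := exists_countable hψ hW hF har
  obtain ⟨N, hN1, hN2, hN3⟩ :=
    exists_measurable_superset_of_null (show m {x | ¬ x ∈ Gd ψ b} = 0 from hm)
  obtain ⟨N', hN1', hN2', hN3'⟩ :=
    exists_measurable_superset_of_null (show m' {x | ¬ x ∈ Gd ψ b} = 0 from hm')
  set G : Set C(unitInterval, ℂ) := (N ∩ N')ᶜ with hG
  have hGm : MeasurableSet G := (hN2.inter hN2').compl
  have hGd : G ⊆ Gd ψ b := by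
    intro x hx
    by_contra hcon
    exact hx ⟨hN1 hcon, hN1' hcon⟩
  have h1 : m Gᶜ = 0 := by
    rw [hG, compl_compl]
    exact measure_mono_null inter_subset_left hN3
  have h1' : m' Gᶜ = 0 := by
    rw [hG, compl_compl]
    exact measure_mono_null inter_subset_right hN3'
  exact eq_of_map hT hGm h1 h1' ((inj_of_sep hsep).mono hGd) (map_eq hc hT)

/-- **The law of the curve is determined by the tests**, for the law of a random curve on any
probability space. -/
theorem law_eq_map {ψ : ℂ → ℂ} {b : ℂ} (hψ : Uni ψ b) {Wc Fc : Set ℂ} (hW : IsClosed Wc)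
    (hF : IsClosed Fc) (har : Arcs ψ b Wc Fc) {m : Measure C(unitInterval, ℂ)}
    [IsProbabilityMeasure m] {Ω : Type} [MeasurableSpace Ω] {P : Measure Ω}
    [IsProbabilityMeasure P] {X : Ω → C(unitInterval, ℂ)} (hX : AEMeasurable X P)
    (hm : ∀ᵐ x ∂m, x ∈ Gd ψ b) (hX' : ∀ᵐ ω ∂P, X ω ∈ Gd ψ b) (hc : Cmp Wc Fc m (P.map X)) :
    m = P.map X := by
  obtain ⟨T, hT, hsep⟩ := exists_countable hψ hW hF har
  have : Countable T := hT
  have hfm := measurable_fT T
  have hpm := Measure.isProbabilityMeasure_map hX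
  have hinj := inj_of_sep hsep
  obtain ⟨N, hN1, hN2, hN3⟩ :=
    exists_measurable_superset_of_null (show m {x | ¬ x ∈ Gd ψ b} = 0 from hm)
  have hGd : Nᶜ ⊆ Gd ψ b := by
    intro x hx
    by_contra hcon
    exact hx (hN1 hcon)
  have hmap := map_eq hc hT
  have him : MeasurableSet (fT T '' Nᶜ) :=
    hN2.compl.image_of_measurable_injOn hfm (hinj.mono hGd)
  have h2 : (m.map (fT T)) (fT T '' Nᶜ)ᶜ = 0 := by
    rw [Measure.map_apply hfm him.compl]
    refine measure_mono_null ?_ hN3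
    intro x hx
    by_contra hcon
    exact hx ⟨x, hcon, rfl⟩
  rw [hmap, Measure.map_apply hfm him.compl, Measure.map_apply_of_aemeasurable hX
    (hfm him.compl)] at h2
  have h3 : ∀ᵐ ω ∂P, X ω ∈ Nᶜ := by
    have h4 : ∀ᵐ ω ∂P, ω ∉ X ⁻¹' (fT T ⁻¹' (fT T '' Nᶜ)ᶜ) := measure_eq_zero_iff_ae_notMem.1 h2
    filter_upwards [h4, hX'] with ω h5 h6
    by_contra hcon
    apply h5
    rintro ⟨y, hy, he⟩
    exact hcon (hinj (hGd hy) h6 he ▸ hy)
  refine eq_of_map hT hN2.compl (by rwa [compl_compl]) ?_ (hinj.mono hGd) hmap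
  rw [compl_compl, Measure.map_apply_of_aemeasurable hX hN2]
  have h5 : ∀ᵐ ω ∂P, ω ∉ X ⁻¹' N := by
    filter_upwards [h3] with ω h6 h7
    exact h6 h7
  exact measure_eq_zero_iff_ae_notMem.2 h5

end law

end Vale.Agent.P167.H259.C
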