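import Vale.Agent.P167.H259.C.Cap

/-!
# P167, route (C): the sets of the two tests

`first_visit_dom`: a first visit of a point of the upper half-plane happens in the domain of all
earlier times. `exists_sets`: the compact connected sets of the two tests in the half-plane.
-/

set_option autoImplicit false

open Set Filter Topology Metric Vale.Agent.P164 Bornology

namespace Vale.Agent.P167.H259.C

open Vale.Agent.P153.R2 Vale.Agent.P153.R2.ARCX Vale.Agent.P167.SLE

variable {W : ℝ → ℝ} {γ : ℝ → ℂ}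

/-- **First visits.** -/
theorem first_visit_dom (hW : Continuous W) (h : IsTrace W γ) {s : ℝ} (him : 0 < (γ s).im)
    (hnew : ∀ u, 0 ≤ u → u < s → γ u ≠ γ s) {r' : ℝ} (hr0 : 0 ≤ r') (hrs : r' < s) :
    γ s ∈ loewnerDomain W r' := by
  have hs : 0 ≤ s := hr0.trans hrs.le
  by_contra hcon
  set S : Set ℂ := {z : ℂ | 0 < z.im} \ γ '' Icc 0 r' with hS
  have hSo : IsOpen S := isOpen_compl_trace h r'
  have hmem : γ s ∈ S := by
    refine ⟨him, ?_⟩
    rintro ⟨u, hu, he⟩
    exact hnew u hu.1 (hu.2.trans_lt hrs) he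
  have hbd : Bornology.IsBounded (connectedComponentIn S (γ s)) := by
    by_contra hb
    apply hcon
    rw [h.domain_eq r' hr0]
    exact ⟨hmem, hb⟩
  set U : Set ℂ := connectedComponentIn S (γ s) with hU
  have hUo : IsOpen U := hSo.connectedComponentIn
  have hdis : Disjoint U (loewnerDomain W r') := by
    rw [h.domain_eq r' hr0, Set.disjoint_left]
    intro z hz hz'
    apply hz'.2
    rwa [← connectedComponentIn_eq hz]
  obtain ⟨δ, hδ, hball⟩ := Metric.continuousWithinAt_iff.1 (h.cont s hs) _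
    (Metric.isOpen_iff.1 hUo (γ s) (mem_connectedComponentIn hmem)).choose_spec.1
  have hball' := (Metric.isOpen_iff.1 hUo (γ s) (mem_connectedComponentIn hmem)).choose_spec.2
  set a : ℝ := max r' (s - δ / 2) with ha
  have har : r' ≤ a := le_max_left _ _
  have has : a < s := max_lt hrs (by linarith)
  have ha0 : 0 ≤ a := hr0.trans har
  set b : ℝ := s + δ / 2 with hb
  have hab : a < b := by rw [hb]; linarith
  have hin : ∀ u ∈ Icc a b, γ u ∈ U := by
    intro u hu
    refine hball' (hball (mem_Ici.2 (ha0.trans hu.1)) ?_)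
    rw [Real.dist_eq, abs_lt]
    have := (le_max_right r' (s - δ / 2)).trans hu.1
    constructor
    · linarith
    · have := hu.2
      rw [hb] at this
      linarith
  have hsub : loewnerDomain W a ⊆ loewnerDomain W b := by
    intro z hz
    rw [h.domain_eq b (ha0.trans hab.le)]
    have hsub' : loewnerDomain W a ⊆ {z : ℂ | 0 < z.im} \ γ '' Icc 0 b := by
      intro y hy
      refine ⟨im_pos_of_dom ha0 hy, ?_⟩
      rintro ⟨u, hu, rfl⟩
      rcases le_total u a with h1 | h1
      · exact disj_trace h hu.1 h1 hy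
      · exact Set.disjoint_left.1 hdis (hin u ⟨h1, hu.2⟩) (dom_mono har hy)
    refine ⟨hsub' hz, fun hb' => ?_⟩
    exact HULL.not_bounded_dom hW (hb'.subset
      ((HULL.isPreconnected_dom hW ha0).subset_connectedComponentIn hz hsub'))
  obtain ⟨z, hz, hz'⟩ := HULL.dom_strict hW ha0 hab
  exact hz' (hsub hz)

/-- Dense special times. -/
theorem exists_special (hW : Continuous W) (h : IsTrace W γ) {s t : ℝ} (hs : 0 ≤ s) (hst : s < t) :
    ∃ r ∈ Ioc s t, 0 < (γ r).im ∧ ∀ r' : ℝ, 0 ≤ r' → r' < r → γ r ∈ loewnerDomain W r' := by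
  obtain ⟨z, hz, hz', hzc⟩ := exists_frontier hW hs hst
  obtain ⟨r, hr, hγ, h1, -⟩ := exists_time h hs hst hz hz' hzc
  refine ⟨r, hr, ?_, fun r' h2 h3 => ?_⟩
  · rw [hγ]
    exact im_pos_of_dom hs hz
  · rw [hγ]
    exact h1 r' h2 h3

/-- The spike: the image of a radial segment, with the tip. -/
theorem spike (hW : Continuous W) {t : ℝ} (ht : 0 ≤ t) {p : ℂ}
    (hlim : ∀ ε > 0, ∃ ρ > 0, ∀ w : ℂ, 0 < w.im → ‖w‖ < ρ → ‖Finv W t w - p‖ ≤ ε) {w : ℂ}
    (hw : 0 < w.im) :
    IsCompact (insert p ((fun s : ℝ => Finv W t (s * w)) '' Ioc 0 1)) ∧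
      IsPreconnected (insert p ((fun s : ℝ => Finv W t (s * w)) '' Ioc 0 1)) := by
  classical
  set g : ℝ → ℂ := fun s => if s ≤ 0 then p else Finv W t (s * w) with hg
  have him : ∀ s : ℝ, 0 < s → 0 < ((s : ℂ) * w).im := by
    intro s hs
    rw [Complex.im_ofReal_mul]
    positivity
  have hgc : ContinuousOn g (Icc 0 1) := by
    intro s hs
    rcases hs.1.eq_or_lt with h0 | h0
    · rw [← h0, Metric.continuousWithinAt_iff]
      intro ε hε
      obtain ⟨ρ, hρ, H⟩ := hlim (ε / 2) (by positivity)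
      refine ⟨ρ / (‖w‖ + 1), by positivity, fun {x} hx hxd => ?_⟩
      have e0 : g 0 = p := by simp [hg]
      rw [e0]
      rcases le_or_gt x 0 with h1 | h1
      · have : g x = p := by simp [hg, h1]
        rw [this, dist_self]
        exact hε
      · have : g x = Finv W t (x * w) := by simp [hg, not_le.2 h1]
        rw [this, dist_eq_norm]
        refine (H _ (him x h1) ?_).trans_lt (by linarith)
        rw [norm_mul, Complex.norm_real, Real.norm_of_nonneg h1.le]
        rw [Real.dist_eq, sub_zero, abs_of_pos h1, lt_div_iff₀ (by positivity)] at hxd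
        nlinarith [norm_nonneg w]
    · have h1 : ContinuousAt (fun x : ℝ => Finv W t (x * w)) s := by
        have h2 : ContinuousAt (Finv W t) ((s : ℂ) * w) := Finv_continuousAt ht hW (him s h0)
        exact ContinuousAt.comp (f := fun x : ℝ => (x : ℂ) * w) h2
          (by fun_prop : Continuous fun x : ℝ => (x : ℂ) * w).continuousAt
      refine (h1.congr ?_).continuousWithinAt
      filter_upwards [lt_mem_nhds h0] with x hx
      simp [hg, not_le.2 hx]
  have himg : g '' Icc 0 1 = insert p ((fun s : ℝ => Finv W t (s * w)) '' Ioc 0 1) := by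
    ext z
    constructor
    · rintro ⟨s, hs, rfl⟩
      rcases hs.1.eq_or_lt with h0 | h0
      · left
        simp [hg, ← h0]
      · right
        exact ⟨s, ⟨h0, hs.2⟩, by simp [hg, not_le.2 h0]⟩
    · rintro (rfl | ⟨s, hs, rfl⟩)
      · exact ⟨0, ⟨le_rfl, zero_le_one⟩, by simp [hg]⟩
      · exact ⟨s, ⟨hs.1.le, hs.2⟩, by simp [hg, not_le.2 hs.1]⟩
  rw [← himg]
  exact ⟨isCompact_Icc.image_of_continuousOn hgc, isPreconnected_Icc.image _ hgc⟩

/-- The imaginary part decreases. -/
theorem im_Zf_le {t : ℝ} (ht : 0 ≤ t) {z : ℂ} (hz : z ∈ loewnerDomain W t) :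
    (Zf W z t).im ≤ z.im := by
  have h1 := im_pos_of_dom ht hz
  have h2 : AntitoneOn (fun s => (gf W z s).im) (Icc 0 t) := by
    refine antitoneOn_of_deriv_nonpos (convex_Icc 0 t) ?_ ?_ ?_
    · exact Complex.continuous_im.comp_continuousOn (gf_cont ht hz)
    · intro s hs
      rw [interior_Icc] at hs
      have h3 := (gf_hasDeriv hz ⟨hs.1.le, hs.2.le⟩).hasDerivAt (Icc_mem_nhds hs.1 hs.2)
      exact (Complex.imCLM.hasFDerivAt.comp_hasDerivAt s h3).differentiableAt.differentiableWithinAt
    · intro s hs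
      rw [interior_Icc] at hs
      have h3 := (gf_hasDeriv hz ⟨hs.1.le, hs.2.le⟩).hasDerivAt (Icc_mem_nhds hs.1 hs.2)
      have h4 := (Complex.imCLM.hasFDerivAt.comp_hasDerivAt s h3).deriv
      have h5 : deriv (fun s => (gf W z s).im) s = (2 / Zf W z s).im := h4
      rw [h5]
      have h6 : 0 < (Zf W z s).im := Zf_im_pos hs.1.le (dom_mono hs.2.le hz)
      have h7 : (2 / Zf W z s).im = -(2 * (Zf W z s).im) / Complex.normSq (Zf W z s) := by
        rw [Complex.div_im]
        simp
        ring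
      rw [h7]
      exact div_nonpos_of_nonpos_of_nonneg (by linarith) (Complex.normSq_nonneg _)
  have h3 := h2 ⟨le_rfl, ht⟩ ⟨ht, le_rfl⟩ ht
  simp only [gf_zero h1] at h3
  rwa [← Zf_im_eq] at h3

end Vale.Agent.P167.H259.C
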