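import Vale.Agent.P167.H259.C.Sets

/-!
# P167, route (C): the sets of the two tests

`exists_sets`: the compact connected sets of the two tests in the half-plane. `LA`, `LB` are end pieces
at far real points.
-/

set_option autoImplicit false

open Set Filter Topology Metric Vale.Agent.P164 Bornology

namespace Vale.Agent.P167.H259.C

open Vale.Agent.P153.R2 Vale.Agent.P153.R2.ARCX Vale.Agent.P167.SLE

variable {W : ℝ → ℝ} {γ : ℝ → ℂ}

theorem abs_sg {σ : ℝ} (hσ : σ = 1 ∨ σ = -1) (a : ℝ) : |σ * a| = |a| := by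
  rcases hσ with rfl | rfl <;> simp

/-- The position of the end pieces. -/
theorem end_pos {t ε₁ ρ₁ κ C R X : ℝ} (ht : 0 ≤ t) {σ : ℝ} (hσ : σ = 1 ∨ σ = -1)
    (hC0 : 0 ≤ C)
    (hR : ∀ z : ℂ, 0 < z.im → R ≤ ‖z‖ → z ∈ loewnerDomain W t ∧ ‖gf W z t - z‖ ≤ C / ‖z‖)
    (hρ₁ : 0 < ρ₁) (hκ1 : κ ≤ 1) (hκ2 : κ ≤ ε₁) (hX : R + C + |W t| + ρ₁ + 4 ≤ X) (hR0 : 0 ≤ R)
    {x : ℝ} (hx : σ * x ≤ -X) {z : ℂ} (hz : z ∈ ball (x : ℂ) κ) (him : 0 < z.im) :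
    z ∈ loewnerDomain W t ∧ (Zf W z t).im < ε₁ ∧ ρ₁ / 4 < -(σ * (Zf W z t).re) := by
  rw [mem_ball, dist_eq_norm] at hz
  have h1 : |z.re - x| < κ := by
    have := Complex.abs_re_le_norm (z - x)
    simp only [Complex.sub_re, Complex.ofReal_re] at this
    linarith
  have h2 : |z.im| < κ := by
    have := Complex.abs_im_le_norm (z - x)
    simp only [Complex.sub_im, Complex.ofReal_im, sub_zero] at this
    linarith
  have hW0 : 0 ≤ |W t| := abs_nonneg _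
  have hxa : X ≤ |x| := by
    rw [← abs_sg hσ x]
    have := neg_abs_le (σ * x)
    linarith
  have hzn : X - 1 ≤ ‖z‖ := by
    have h3 := Complex.abs_re_le_norm z
    have h4 : |x| ≤ |z.re| + |z.re - x| := by
      have := abs_sub_abs_le_abs_sub x z.re
      rw [abs_sub_comm] at this
      linarith
    linarith
  obtain ⟨hd, he⟩ := hR z him (by linarith)
  refine ⟨hd, ?_, ?_⟩
  · have := im_Zf_le ht hd
    rw [abs_of_pos him] at h2
    linarith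
  · have hz0 : 0 < ‖z‖ := by linarith
    have h5 : C / ‖z‖ ≤ 1 := by
      rw [div_le_one hz0]
      linarith
    have h6 : |(gf W z t).re - z.re| ≤ 1 := by
      have := Complex.abs_re_le_norm (gf W z t - z)
      simp only [Complex.sub_re] at this
      linarith
    have h7 : (Zf W z t).re = (gf W z t).re - W t := by rw [Zf_eq]; simp
    have h8 : σ * (Zf W z t).re = σ * x + (σ * ((gf W z t).re - z.re) + σ * (z.re - x) - σ * W t) := by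
      rw [h7]; ring
    have h9 : |σ * ((gf W z t).re - z.re)| ≤ 1 := by rwa [abs_sg hσ]
    have h10 : |σ * (z.re - x)| ≤ 1 := by rw [abs_sg hσ]; linarith
    have h11 : |σ * W t| = |W t| := abs_sg hσ _
    have h12 := le_abs_self (σ * ((gf W z t).re - z.re))
    have h13 := le_abs_self (σ * (z.re - x))
    have h14 := neg_abs_le (σ * W t)
    rw [h8]
    linarith

/-- The image of a segment. -/
theorem seg_part (hW : Continuous W) {t : ℝ} (ht : 0 ≤ t) {O : Set ℂ} (hO : Convex ℝ O)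
    (hOi : ∀ w ∈ O, 0 < w.im) {a b : ℂ} (ha : a ∈ O) (hb : b ∈ O) :
    ∃ G : Set ℂ, IsCompact G ∧ IsPreconnected G ∧ Finv W t a ∈ G ∧ Finv W t b ∈ G ∧
      ∀ z ∈ G, z ∈ loewnerDomain W t ∧ Zf W z t ∈ O := by
  have hseg : segment ℝ a b ⊆ O := hO.segment_subset ha hb
  have hi : segment ℝ a b ⊆ {w : ℂ | 0 < w.im} := fun w hw => hOi w (hseg hw)
  have hc : IsCompact (segment ℝ a b) := by
    rw [segment_eq_image_lineMap]
    exact isCompact_Icc.image (by fun_prop)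
  refine ⟨Finv W t '' segment ℝ a b, hc.image_of_continuousOn ((Finv_continuousOn ht hW).mono hi),
    (convex_segment a b).isPreconnected.image _ ((Finv_continuousOn ht hW).mono hi),
    ⟨a, left_mem_segment ℝ _ _, rfl⟩, ⟨b, right_mem_segment ℝ _ _, rfl⟩, ?_⟩
  rintro _ ⟨w, hw, rfl⟩
  rw [Zf_Finv ht hW (hi hw)]
  exact ⟨Finv_mem ht hW (hi hw), hseg hw⟩

/-- The spike. -/
theorem spike_part (hW : Continuous W) {t : ℝ} (ht : 0 ≤ t) {p : ℂ} {ρ₁ η : ℝ} (hη : 0 < η)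
    (hF : ∀ w : ℂ, 0 < w.im → ‖w‖ < ρ₁ → ‖Finv W t w - p‖ ≤ η)
    (hlim : ∀ ε > 0, ∃ ρ > 0, ∀ w : ℂ, 0 < w.im → ‖w‖ < ρ → ‖Finv W t w - p‖ ≤ ε) {w : ℂ}
    (hw : 0 < w.im) (hwρ : ‖w‖ < ρ₁) :
    ∃ S : Set ℂ, IsCompact S ∧ IsPreconnected S ∧ p ∈ S ∧ Finv W t w ∈ S ∧ S ⊆ closedBall p η ∧
      ∀ z ∈ S, z = p ∨ (z ∈ loewnerDomain W t ∧ ∃ s ∈ Ioc (0 : ℝ) 1, Zf W z t = s * w) := by
  have him : ∀ s : ℝ, 0 < s → 0 < ((s : ℂ) * w).im := by
    intro s hs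
    rw [Complex.im_ofReal_mul]
    positivity
  obtain ⟨c1, c2⟩ := spike hW ht hlim hw
  refine ⟨_, c1, c2, mem_insert _ _, Or.inr ⟨1, ⟨one_pos, le_rfl⟩, by simp⟩, ?_, ?_⟩
  · rintro _ (rfl | ⟨s, hs, rfl⟩)
    · exact mem_closedBall_self hη.le
    · rw [mem_closedBall, dist_eq_norm]
      refine hF _ (him s hs.1) ?_
      rw [norm_mul, Complex.norm_real, Real.norm_of_nonneg hs.1.le]
      refine lt_of_le_of_lt ?_ hwρ
      have := norm_nonneg w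
      nlinarith [hs.2]
  · rintro _ (rfl | ⟨s, hs, rfl⟩)
    · exact Or.inl rfl
    · refine Or.inr ⟨Finv_mem ht hW (him s hs.1), s, hs, ?_⟩
      simp only
      rw [Zf_Finv ht hW (him s hs.1)]

/-- The box. -/
theorem box_part (hW : Continuous W) {t : ℝ} (ht : 0 ≤ t) {Q : Set ℂ} (hQ : IsCompact Q)
    (hQd : Q ⊆ loewnerDomain W t) :
    ∃ h0 > 0, ∀ r : ℝ, ∃ G : Set ℂ, IsCompact G ∧ IsPreconnected G ∧ Q ⊆ G ∧
      Finv W t ⟨r, h0⟩ ∈ G ∧ ∀ z ∈ G, z ∈ loewnerDomain W t ∧ h0 ≤ (Zf W z t).im := by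
  obtain ⟨h0, hh0, M, hM⟩ : ∃ h0 > 0, ∃ M : ℝ, ∀ z ∈ Q, h0 ≤ (Zf W z t).im ∧
      ‖Zf W z t‖ ≤ M := by
    have hc : IsCompact ((fun z => Zf W z t) '' Q) :=
      hQ.image_of_continuousOn ((Zf_continuousOn ht hW).mono hQd)
    obtain ⟨M, hM⟩ := hc.isBounded.exists_norm_le
    rcases Q.eq_empty_or_nonempty with rfl | hne
    · exact ⟨1, one_pos, 0, fun z hz => absurd hz (notMem_empty z)⟩
    · obtain ⟨w, hw, hmin⟩ := hc.exists_isMinOn (hne.image _) Complex.continuous_im.continuousOn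
      obtain ⟨z0, hz0, rfl⟩ := hw
      exact ⟨_, Zf_im_pos ht (hQd hz0), M, fun z hz => ⟨hmin (mem_image_of_mem _ hz),
        hM _ (mem_image_of_mem _ hz)⟩⟩
  refine ⟨h0, hh0, fun r => ?_⟩
  set M' : ℝ := max M (max |r| h0) with hM'
  set Bx : Set ℂ := Icc (-M') M' ×ℂ Icc h0 M' with hBx
  have hM'1 : M ≤ M' := le_max_left _ _
  have hM'2 : |r| ≤ M' := (le_max_left _ _).trans (le_max_right _ _)
  have hM'3 : h0 ≤ M' := (le_max_right _ _).trans (le_max_right _ _)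
  have hBxc : IsCompact Bx := isCompact_Icc.reProdIm isCompact_Icc
  have hBxp : IsPreconnected Bx := by
    have h1 : Convex ℝ Bx := by
      rw [hBx, ← convexHull_eq_self, Complex.convexHull_reProdIm, (convex_Icc (-M') M').convexHull_eq,
        (convex_Icc h0 M').convexHull_eq]
    exact h1.isPreconnected
  have iBx : ∀ w ∈ Bx, 0 < w.im := fun w hw => by
    rw [hBx, Complex.mem_reProdIm] at hw
    exact hh0.trans_le hw.2.1
  refine ⟨Finv W t '' Bx, hBxc.image_of_continuousOn ((Finv_continuousOn ht hW).mono iBx),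
    hBxp.image _ ((Finv_continuousOn ht hW).mono iBx), ?_, ⟨⟨r, h0⟩, ?_, rfl⟩, ?_⟩
  · intro z hz
    refine ⟨Zf W z t, ?_, Finv_Zf ht hW (hQd hz)⟩
    obtain ⟨h1, h2⟩ := hM z hz
    rw [hBx, Complex.mem_reProdIm]
    have h3 := Complex.abs_re_le_norm (Zf W z t)
    have h4 := Complex.abs_im_le_norm (Zf W z t)
    refine ⟨abs_le.1 (by linarith), h1, ?_⟩
    have := le_abs_self (Zf W z t).im
    linarith
  · rw [hBx, Complex.mem_reProdIm]
    exact ⟨abs_le.1 hM'2, le_rfl, hM'3⟩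
  · rintro _ ⟨w, hw, rfl⟩
    rw [Zf_Finv ht hW (iBx w hw)]
    refine ⟨Finv_mem ht hW (iBx w hw), ?_⟩
    rw [hBx, Complex.mem_reProdIm] at hw
    exact hw.2.1

/-- Half-planes in positions. -/
theorem lin_re (a : ℝ) : IsLinearMap ℝ fun w : ℂ => a * w.re :=
  ⟨fun x y => by simp [mul_add], fun c x => by simp; ring⟩

theorem convex_strip (σ ε c : ℝ) : Convex ℝ {w : ℂ | 0 < w.im ∧ w.im < ε ∧ c < σ * w.re} := by
  have e : {w : ℂ | 0 < w.im ∧ w.im < ε ∧ c < σ * w.re} =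
      {w : ℂ | 0 < w.im} ∩ ({w : ℂ | w.im < ε} ∩ {w : ℂ | c < σ * w.re}) := by
    ext w; simp
  rw [e]
  exact (convex_halfSpace_im_gt 0).inter
    ((convex_halfSpace_im_lt ε).inter (convex_halfSpace_gt (lin_re σ) _))

theorem convex_half (σ c : ℝ) : Convex ℝ {w : ℂ | 0 < w.im ∧ c < σ * w.re} := by
  have e : {w : ℂ | 0 < w.im ∧ c < σ * w.re} =
      {w : ℂ | 0 < w.im} ∩ {w : ℂ | c < σ * w.re} := by
    ext w; simp
  rw [e]
  exact (convex_halfSpace_im_gt 0).inter (convex_halfSpace_gt (lin_re σ) _)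

theorem norm_mk {a b c : ℝ} (h : |a| + |b| < c) : ‖(⟨a, b⟩ : ℂ)‖ < c :=
  (Complex.norm_le_abs_re_add_abs_im _).trans_lt h

/-- The building blocks: `SL`, `SR` the spikes, `GA`, `GB` the ways from the end pieces, `GQ` the part
with the box. -/
theorem exists_parts (hW : Continuous W) (h : IsTrace W γ) {t : ℝ} (ht0 : 0 < t)
    (hsp : ∀ r' : ℝ, 0 ≤ r' → r' < t → γ t ∈ loewnerDomain W r')
    {σ : ℝ} (hσ : σ = 1 ∨ σ = -1)
    {η : ℝ} (hη : 0 < η) {Q : Set ℂ} (hQ : IsCompact Q) (hQd : Q ⊆ loewnerDomain W t) :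
    ∃ ε₁ > 0, ∃ ρ > 0, (∃ GQ : Set ℂ, IsCompact GQ ∧ IsPreconnected GQ ∧ Q ⊆ GQ ∧
        Finv W t ⟨-(σ * (2 * ρ)), ε₁ / 2⟩ ∈ GQ ∧ ∀ z ∈ GQ, z ∈ loewnerDomain W t ∧
          (ρ < -(σ * (Zf W z t).re) ∨ ε₁ < (Zf W z t).im)) ∧
      (∃ SL : Set ℂ, IsCompact SL ∧ IsPreconnected SL ∧ γ t ∈ SL ∧
        Finv W t ⟨-(σ * (2 * ρ)), ε₁ / 2⟩ ∈ SL ∧ SL ⊆ closedBall (γ t) η ∧
        ∀ z ∈ SL, z = γ t ∨ (z ∈ loewnerDomain W t ∧ σ * (Zf W z t).re ≤ 0)) ∧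
      (∃ SR : Set ℂ, IsCompact SR ∧ IsPreconnected SR ∧ γ t ∈ SR ∧
        Finv W t ⟨σ * (2 * ρ), ε₁ / 2⟩ ∈ SR ∧ SR ⊆ closedBall (γ t) η ∧
        ∀ z ∈ SR, z = γ t ∨ (z ∈ loewnerDomain W t ∧ 0 ≤ σ * (Zf W z t).re ∧
          (Zf W z t).im < ε₁)) := by
  have ht : 0 ≤ t := ht0.le
  obtain ⟨ρ₁, hρ₁, hF⟩ := tip_cont hW h ht0 hsp (d := η) hη
  have hlim : ∀ ε > 0, ∃ ρ > 0, ∀ w : ℂ, 0 < w.im → ‖w‖ < ρ → ‖Finv W t w - γ t‖ ≤ ε := by
    intro ε hε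
    obtain ⟨ρ, hρ, H⟩ := tip_cont hW h ht0 hsp (d := ε) hε
    exact ⟨ρ, hρ, fun w hw hwρ => (H w hw hwρ).trans (by linarith)⟩
  have hF' : ∀ w : ℂ, 0 < w.im → ‖w‖ < ρ₁ → ‖Finv W t w - γ t‖ ≤ η :=
    fun w h1 h2 => (hF w h1 h2).trans (by linarith)
  obtain ⟨h0, hh0, hbox⟩ := box_part hW ht hQ hQd
  have hσσ : σ * σ = 1 := by rcases hσ with h1 | h1 <;> rw [h1] <;> norm_num
  set ε₁ : ℝ := min (ρ₁ / 4) (h0 / 2) with hε₁
  have hε₁0 : 0 < ε₁ := by positivity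
  have hε₁ρ : ε₁ ≤ ρ₁ / 4 := min_le_left _ _
  have hε₁h : ε₁ ≤ h0 / 2 := min_le_right _ _
  set ρ : ℝ := ρ₁ / 4 with hρ
  have hρ0 : 0 < ρ := by positivity
  have hε2 : |ε₁ / 2| = ε₁ / 2 := abs_of_pos (by positivity)
  have hρ2 : |2 * ρ| = 2 * ρ := abs_of_pos (by positivity)
  refine ⟨ε₁, hε₁0, ρ, hρ0, ?_, ?_, ?_⟩
  · obtain ⟨GX, cX, pX, QX, TX, labX⟩ := hbox (-(σ * (2 * ρ)))
    have hpos : 0 < -(σ * (2 * ρ)) * -σ - ρ := by
      have : -(σ * (2 * ρ)) * -σ = 2 * ρ := by linear_combination (2 * ρ) * hσσ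
      rw [this]; linarith
    obtain ⟨GT, cT, pT, aT, bT, labT⟩ := seg_part hW ht (convex_half (-σ) ρ)
      (fun w hw => hw.1) (a := ⟨-(σ * (2 * ρ)), ε₁ / 2⟩) (b := ⟨-(σ * (2 * ρ)), h0⟩)
      ⟨by show 0 < ε₁ / 2; positivity, by show ρ < -σ * -(σ * (2 * ρ)); linarith⟩
      ⟨hh0, by show ρ < -σ * -(σ * (2 * ρ)); linarith⟩
    refine ⟨GT ∪ GX, cT.union cX, IsPreconnected.union _ bT TX pT pX,
      QX.trans subset_union_right, Or.inl aT, ?_⟩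
    rintro z (hz | hz)
    · have := labT z hz
      exact ⟨this.1, Or.inl (by have h1 := this.2.2; linarith)⟩
    · have := labX z hz
      exact ⟨this.1, Or.inr (by linarith [this.2])⟩
  · obtain ⟨S, c1, c2, c3, c4, c5, c6⟩ := spike_part hW ht hη hF' hlim
      (w := ⟨-(σ * (2 * ρ)), ε₁ / 2⟩) (by show 0 < ε₁ / 2; positivity)
      (norm_mk (by rw [abs_neg, abs_sg hσ, hε2, hρ2]; linarith))
    refine ⟨S, c1, c2, c3, c4, c5, fun z hz => ?_⟩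
    rcases c6 z hz with h1 | ⟨h1, s, hs, h2⟩
    · exact Or.inl h1
    · refine Or.inr ⟨h1, ?_⟩
      rw [h2, Complex.re_ofReal_mul]
      show σ * (s * -(σ * (2 * ρ))) ≤ 0
      have : σ * (s * -(σ * (2 * ρ))) = -(s * (2 * ρ)) := by linear_combination (-(s * (2 * ρ))) * hσσ
      rw [this]
      have := mul_pos hs.1 (by positivity : 0 < 2 * ρ)
      linarith
  · obtain ⟨S, c1, c2, c3, c4, c5, c6⟩ := spike_part hW ht hη hF' hlim
      (w := ⟨σ * (2 * ρ), ε₁ / 2⟩) (by show 0 < ε₁ / 2; positivity)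
      (norm_mk (by rw [abs_sg hσ, hε2, hρ2]; linarith))
    refine ⟨S, c1, c2, c3, c4, c5, fun z hz => ?_⟩
    rcases c6 z hz with h1 | ⟨h1, s, hs, h2⟩
    · exact Or.inl h1
    · refine Or.inr ⟨h1, ?_, ?_⟩
      · rw [h2, Complex.re_ofReal_mul]
        show 0 ≤ σ * (s * (σ * (2 * ρ)))
        have : σ * (s * (σ * (2 * ρ))) = s * (2 * ρ) := by linear_combination (s * (2 * ρ)) * hσσ
        rw [this]
        have := mul_pos hs.1 (by positivity : 0 < 2 * ρ)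
        linarith
      · rw [h2, Complex.im_ofReal_mul]
        show s * (ε₁ / 2) < ε₁
        nlinarith [hs.2]

/-- The ways from the end pieces. -/
theorem exists_ends (hW : Continuous W) (h : IsTrace W γ) {t : ℝ} (ht : 0 ≤ t)
    {σ : ℝ} (hσ : σ = 1 ∨ σ = -1) {ε₁ ρ : ℝ} (hε : 0 < ε₁) (hρ : 0 < ρ) :
    ∃ X > 0, ∃ κ > 0, ∀ xA : ℝ, σ * xA ≤ -X → ∀ LA : Set ℂ,
      IsCompact LA → IsPreconnected LA → LA ⊆ ball (xA : ℂ) κ →
      (∀ z ∈ LA, z = xA ∨ 0 < z.im) → (∃ z ∈ LA, 0 < z.im) →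
      Disjoint LA (γ '' Icc 0 t) ∧
      (∀ z ∈ LA, z = xA ∨ (z ∈ loewnerDomain W t ∧ (Zf W z t).im < ε₁ ∧
        ρ < -(σ * (Zf W z t).re))) ∧
      ∃ GA : Set ℂ, IsCompact GA ∧ IsPreconnected (GA ∪ LA) ∧
        Finv W t ⟨-(σ * (2 * ρ)), ε₁ / 2⟩ ∈ GA ∧ ∀ z ∈ GA, z ∈ loewnerDomain W t ∧
          (Zf W z t).im < ε₁ ∧ ρ < -(σ * (Zf W z t).re) := by
  obtain ⟨C, R, hC0, hR1, hRR⟩ := gf_expand hW ht
  obtain ⟨Mγ, hMγ⟩ := (isCompact_trace h t).isBounded.exists_norm_le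
  have hσσ : σ * σ = 1 := by rcases hσ with h1 | h1 <;> rw [h1] <;> norm_num
  set X : ℝ := R + C + |W t| + 4 * ρ + 4 + |Mγ| with hX
  have hX0 : 0 < X := by positivity
  have hXle : R + C + |W t| + 4 * ρ + 4 ≤ X := by
    rw [hX]; linarith [abs_nonneg Mγ]
  have hRR' : ∀ z : ℂ, 0 < z.im → R ≤ ‖z‖ → z ∈ loewnerDomain W t ∧
      ‖gf W z t - z‖ ≤ C / ‖z‖ := fun z h1 h2 => ⟨(hRR z h1 h2).1, (hRR z h1 h2).2.1⟩
  refine ⟨X, hX0, min 1 ε₁, by positivity, fun xA hxA LA hLAc hLAp hLAκ hLAi hLAn => ?_⟩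
  have posA : ∀ z ∈ LA, 0 < z.im → z ∈ loewnerDomain W t ∧ (Zf W z t).im < ε₁ ∧
      ρ < -(σ * (Zf W z t).re) := fun z hz hzi => by
    have := end_pos (ρ₁ := 4 * ρ) ht hσ hC0 hRR' (by positivity) (min_le_left _ _)
      (min_le_right _ _) hXle (by linarith) hxA (hLAκ hz) hzi
    refine ⟨this.1, this.2.1, ?_⟩
    have h2 := this.2.2
    linarith
  refine ⟨?_, fun z hz => (hLAi z hz).imp_right (posA z hz), ?_⟩
  · rw [Set.disjoint_left]
    rintro z hz hz'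
    rcases hLAi z hz with h1 | h1
    · rw [h1] at hz'
      have h2 := hMγ _ hz'
      rw [Complex.norm_real, Real.norm_eq_abs] at h2
      have h3 := le_abs_self Mγ
      have h4 : 0 ≤ |W t| := abs_nonneg _
      have h5 : X ≤ |xA| := by
        rw [← abs_sg hσ xA]
        have := neg_abs_le (σ * xA)
        linarith
      rw [hX] at h5
      linarith
    · obtain ⟨u, hu, rfl⟩ := hz'
      exact disj_trace h hu.1 hu.2 (posA _ hz h1).1
  · obtain ⟨zA, hzA, hzAi⟩ := hLAn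
    have hzAd := posA zA hzA hzAi
    have hpos : -(σ * -(σ * (2 * ρ))) = 2 * ρ := by linear_combination (2 * ρ) * hσσ
    obtain ⟨G, c1, c2, c3, c4, c5⟩ := seg_part hW ht (convex_strip (-σ) ε₁ ρ) (fun w hw => hw.1)
      (a := Zf W zA t) (b := ⟨-(σ * (2 * ρ)), ε₁ / 2⟩)
      ⟨Zf_im_pos ht hzAd.1, hzAd.2.1, by have := hzAd.2.2; linarith⟩
      ⟨by show 0 < ε₁ / 2; positivity, by show ε₁ / 2 < ε₁; linarith,
        by show ρ < -σ * -(σ * (2 * ρ)); linarith⟩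
    rw [Finv_Zf ht hW hzAd.1] at c3
    refine ⟨G, c1, IsPreconnected.union zA c3 hzA c2 hLAp, c4, fun z hz => ?_⟩
    have := c5 z hz
    exact ⟨this.1, this.2.2.1, by have h1 := this.2.2.2; linarith⟩

/-- **The sets of the two tests.** -/
theorem exists_sets (hW : Continuous W) (h : IsTrace W γ) {t : ℝ} (ht0 : 0 < t)
    (hsp : ∀ r' : ℝ, 0 ≤ r' → r' < t → γ t ∈ loewnerDomain W r') (hpim : 0 < (γ t).im)
    {σ : ℝ} (hσ : σ = 1 ∨ σ = -1)
    {η : ℝ} (hη : 0 < η) {Q : Set ℂ} (hQ : IsCompact Q) (hQd : Q ⊆ loewnerDomain W t) :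
    ∃ X > 0, ∃ κ > 0, ∀ xA xB : ℝ, σ * xA ≤ -X → X ≤ σ * xB → ∀ LA LB : Set ℂ,
      IsCompact LA → IsPreconnected LA → IsCompact LB → IsPreconnected LB →
      LA ⊆ ball (xA : ℂ) κ → LB ⊆ ball (xB : ℂ) κ →
      (∀ z ∈ LA, z = xA ∨ 0 < z.im) → (∀ z ∈ LB, z = xB ∨ 0 < z.im) →
      (∃ z ∈ LA, 0 < z.im) → (∃ z ∈ LB, 0 < z.im) →
      ∃ CA₁ CB₁ CA₂ CB₂ : Set ℂ, (IsCompact CA₁ ∧ IsCompact CB₁ ∧ IsCompact CA₂ ∧ IsCompact CB₂) ∧
        (IsPreconnected (CA₁ ∪ LA) ∧ IsPreconnected (CB₁ ∪ LB) ∧ IsPreconnected (CA₂ ∪ LA) ∧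
          IsPreconnected (CB₂ ∪ LB)) ∧
        (CA₁ ⊆ loewnerDomain W t ∧ CB₂ ⊆ loewnerDomain W t ∧
          CA₂ ⊆ insert (γ t) (loewnerDomain W t) ∧ CB₁ ⊆ insert (γ t) (loewnerDomain W t)) ∧
        (γ t ∈ CA₂ ∧ γ t ∈ CB₁ ∧ Q ⊆ CA₁) ∧
        (Disjoint (CA₁ ∪ LA) (CB₁ ∪ LB) ∧ Disjoint (CA₂ ∪ LA) (CB₂ ∪ LB)) ∧
        (CA₂ ⊆ CA₁ ∪ closedBall (γ t) η ∧ CB₁ ⊆ CB₂ ∪ closedBall (γ t) η) ∧
        Disjoint LA (γ '' Icc 0 t) ∧ Disjoint LB (γ '' Icc 0 t) := by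
  have ht : 0 ≤ t := ht0.le
  have hσ' : -σ = 1 ∨ -σ = -1 := by
    rcases hσ with h1 | h1
    · right; rw [h1]
    · left; rw [h1]; ring
  obtain ⟨ε₁, hε, ρ, hρ, ⟨GQ, cQ, pQ, QQ, LQ, labQ⟩, ⟨SL, cL, pL, tL, mL, bL, labL⟩,
    ⟨SR, cR, pR, tR, mR, bR, labR⟩⟩ := exists_parts hW h ht0 hsp hσ hη hQ hQd
  obtain ⟨X, hX, κ, hκ, H⟩ := exists_ends hW h ht hσ hε hρ
  obtain ⟨X', hX', κ', hκ', H'⟩ := exists_ends hW h ht hσ' hε hρ
  refine ⟨max X X', by positivity, min κ κ', by positivity, ?_⟩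
  intro xA xB hxA hxB LA LB hLAc hLAp hLBc hLBp hLAκ hLBκ hLAi hLBi hLAn hLBn
  obtain ⟨dA, lA, GA, cGA, pGA, mGA, labGA⟩ := H xA (by linarith [le_max_left X X']) LA hLAc hLAp
    (hLAκ.trans (ball_subset_ball (min_le_left _ _))) hLAi hLAn
  obtain ⟨dB, lB, GB, cGB, pGB, mGB, labGB⟩ := H' xB (by linarith [le_max_right X X']) LB hLBc hLBp
    (hLBκ.trans (ball_subset_ball (min_le_right _ _))) hLBi hLBn
  have e1 : -(-σ * (2 * ρ)) = σ * (2 * ρ) := by ring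
  rw [e1] at mGB
  have pnot : γ t ∉ loewnerDomain W t := disj_trace h ht le_rfl
  have hxAne : ∀ x : ℝ, (x : ℂ) ∉ loewnerDomain W t := by
    intro x hx
    have := im_pos_of_dom ht hx
    simp at this
  have hxAB : xA ≠ xB := by
    rintro rfl
    have : 0 < max X X' := by positivity
    linarith
  have hpx : ∀ x : ℝ, γ t ≠ (x : ℂ) := by
    intro x hx
    rw [hx] at hpim
    simp at hpim
  have labA1 : ∀ z ∈ (GA ∪ GQ) ∪ LA, z = xA ∨ (z ∈ loewnerDomain W t ∧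
      (ρ < -(σ * (Zf W z t).re) ∨ ε₁ < (Zf W z t).im)) := by
    rintro z ((hz | hz) | hz)
    · exact Or.inr ⟨(labGA z hz).1, Or.inl (labGA z hz).2.2⟩
    · exact Or.inr (labQ z hz)
    · exact (lA z hz).imp_right fun h1 => ⟨h1.1, Or.inl h1.2.2⟩
  have labB2 : ∀ z ∈ GB ∪ LB, z = xB ∨ (z ∈ loewnerDomain W t ∧
      (Zf W z t).im < ε₁ ∧ ρ < σ * (Zf W z t).re) := by
    rintro z (hz | hz)
    · have := labGB z hz
      exact Or.inr ⟨this.1, this.2.1, by linarith [this.2.2]⟩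
    · exact (lB z hz).imp_right fun h1 => ⟨h1.1, h1.2.1, by linarith [h1.2.2]⟩
  have dis1 : Disjoint ((GA ∪ GQ) ∪ LA) (SR ∪ (GB ∪ LB)) := by
    rw [Set.disjoint_left]
    intro z hz hz'
    have h1 := labA1 z hz
    rcases hz' with hz' | hz'
    · rcases labR z hz' with h2 | h2
      · rcases h1 with h1 | h1
        · exact hpx xA (h2.symm.trans h1)
        · exact pnot (h2 ▸ h1.1)
      · rcases h1 with h1 | h1
        · exact hxAne xA (h1 ▸ h2.1)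
        · rcases h1.2 with h3 | h3 <;> linarith [h2.2.1, h2.2.2]
    · rcases labB2 z hz' with h2 | h2
      · rcases h1 with h1 | h1
        · exact hxAB (by exact_mod_cast h1.symm.trans h2)
        · exact hxAne xB (h2 ▸ h1.1)
      · rcases h1 with h1 | h1
        · exact hxAne xA (h1 ▸ h2.1)
        · rcases h1.2 with h3 | h3 <;> linarith [h2.2.1, h2.2.2]
  have dis2 : Disjoint (SL ∪ (GA ∪ LA)) (GB ∪ LB) := by
    rw [Set.disjoint_left]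
    intro z hz hz'
    have h2 := labB2 z hz'
    rcases hz with hz | hz
    · rcases labL z hz with h1 | h1
      · rcases h2 with h2 | h2
        · exact hpx xB (h1.symm.trans h2)
        · exact pnot (h1 ▸ h2.1)
      · rcases h2 with h2 | h2
        · exact hxAne xB (h2 ▸ h1.1)
        · linarith [h1.2, h2.2.2]
    · have hz1 : z ∈ (GA ∪ GQ) ∪ LA := by
        rcases hz with hz | hz
        · exact Or.inl (Or.inl hz)
        · exact Or.inr hz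
      exact (Set.disjoint_left.1 dis1) hz1 (Or.inr hz')
  refine ⟨GA ∪ GQ, SR ∪ GB, SL ∪ GA, GB, ⟨cGA.union cQ, cR.union cGB, cL.union cGA, cGB⟩,
    ⟨?_, ?_, ?_, pGB⟩, ⟨?_, fun z hz => (labGB z hz).1, ?_, ?_⟩,
    ⟨Or.inl tL, Or.inl tR, QQ.trans subset_union_right⟩, ⟨?_, ?_⟩, ⟨?_, ?_⟩, dA, dB⟩
  · have h2 : IsPreconnected ((GA ∪ LA) ∪ GQ) := IsPreconnected.union _ (Or.inl mGA) LQ pGA pQ
    rwa [union_right_comm] at h2
  · have h2 : IsPreconnected (SR ∪ (GB ∪ LB)) := IsPreconnected.union _ mR (Or.inl mGB) pR pGB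
    rwa [union_assoc]
  · have h2 : IsPreconnected (SL ∪ (GA ∪ LA)) := IsPreconnected.union _ mL (Or.inl mGA) pL pGA
    rwa [union_assoc]
  · exact union_subset (fun z hz => (labGA z hz).1) (fun z hz => (labQ z hz).1)
  · refine union_subset (fun z hz => ?_) (fun z hz => Or.inr (labGA z hz).1)
    rcases labL z hz with h1 | h1
    · exact Or.inl h1
    · exact Or.inr h1.1
  · refine union_subset (fun z hz => ?_) (fun z hz => Or.inr (labGB z hz).1)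
    rcases labR z hz with h1 | h1
    · exact Or.inl h1
    · exact Or.inr h1.1
  · rwa [union_assoc SR]
  · rwa [union_assoc SL]
  · exact union_subset (bL.trans subset_union_right)
      ((subset_union_left (t := GQ)).trans subset_union_left)
  · exact union_subset (bR.trans subset_union_right) subset_union_left

end Vale.Agent.P167.H259.C
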