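import Vale.Agent.P167.H259.C.Defs

/-!
# P167, general `q`, route (C): the tests

`Ev KA KB ε`: the curve visits the `2 ε`-neighbourhood of `KB` before the closed `ε`-neighbourhood of
`KA`. Two laws which are comparable (`CmpLe` in both directions) give the same probabilities to all
finite intersections of these events.
-/

set_option autoImplicit false

open MeasureTheory Set Topology Metric Filter

namespace Vale.Agent.P167.H259.C

open Vale.Agent.P167.SLE

/-- The closed neighbourhood of a compact connected set is connected. -/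
theorem cthick_conn {K : Set ℂ} (hK : IsCompact K) (hp : IsPreconnected K) {a : ℝ} (ha : 0 ≤ a) :
    IsPreconnected (cthickening a K) := by
  rcases K.eq_empty_or_nonempty with rfl | ⟨z0, hz0⟩
  · simp [isPreconnected_empty]
  rw [hK.cthickening_eq_biUnion_closedBall ha]
  have e : (⋃ x ∈ K, closedBall x a) = ⋃ x : K, (K ∪ closedBall (x : ℂ) a) := by
    ext z
    simp only [mem_iUnion, mem_union, Subtype.exists, exists_prop]
    constructor
    · rintro ⟨x, hx, hz⟩
      exact ⟨x, hx, Or.inr hz⟩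
    · rintro ⟨x, hx, hz | hz⟩
      · exact ⟨z, hz, mem_closedBall_self ha⟩
      · exact ⟨x, hx, hz⟩
  rw [e]
  refine isPreconnected_iUnion ⟨z0, mem_iInter.2 fun x => Or.inl hz0⟩ fun x => ?_
  exact IsPreconnected.union x.1 x.2 (mem_closedBall_self ha) hp
    (convex_closedBall x.1 a).isPreconnected

/-- The open event of a test. -/
def Ev (KA KB : Set ℂ) (ε : ℝ) : Set C(unitInterval, ℂ) :=
  Hit (cthickening ε KA) (thickening (2 * ε) KB)

/-- The closed bound of the event of a test. -/
def EvC (KA KB : Set ℂ) (ε : ℝ) : Set C(unitInterval, ℂ) :=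
  {x | ∃ t, x t ∈ cthickening (2 * ε) KB ∧ ∀ s < t, x s ∉ thickening ε KA}

/-- The data of a test. -/
structure Val (Wc Fc KA KB : Set ℂ) (ε : ℝ) : Prop where
  pos : 0 < ε
  cA : IsCompact KA
  cB : IsCompact KB
  kA : IsPreconnected KA
  kB : IsPreconnected KB
  disj : Disjoint (cthickening (2 * ε) KA) (cthickening (2 * ε) KB)
  freeA : Disjoint (cthickening (2 * ε) KA) Fc
  wirB : Disjoint (cthickening (2 * ε) KB) Wc
  meetA : (KA ∩ Wc).Nonempty
  meetB : (KB ∩ Fc).Nonempty

theorem sub_int {K : Set ℂ} {a b : ℝ} (hb : 0 < b) (hab : a < b) :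
    cthickening a K ⊆ interior (cthickening b K) :=
  (cthickening_subset_thickening' hb hab K).trans (thickening_subset_interior_cthickening b K)

theorem Val.adm {Wc Fc KA KB : Set ℂ} {ε : ℝ} (h : Val Wc Fc KA KB ε) {a b : ℝ} (ha : 0 < a)
    (ha2 : a ≤ 2 * ε) (hb : 0 < b) (hb2 : b ≤ 2 * ε) :
    Adm Wc Fc (cthickening a KA) (cthickening b KB) := by
  have hA : cthickening a KA ⊆ cthickening (2 * ε) KA := cthickening_mono ha2 _
  have hB : cthickening b KB ⊆ cthickening (2 * ε) KB := cthickening_mono hb2 _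
  refine ⟨h.cA.cthickening, h.cB.cthickening, cthick_conn h.cA h.kA ha.le,
    cthick_conn h.cB h.kB hb.le, h.disj.mono hA hB, h.freeA.mono_left hA, h.wirB.mono_left hB, ?_,
    ?_⟩
  · refine h.meetA.mono (inter_subset_inter_left _ ?_)
    exact (self_subset_thickening ha KA).trans (thickening_subset_interior_cthickening a KA)
  · refine h.meetB.mono (inter_subset_inter_left _ ?_)
    exact (self_subset_thickening hb KB).trans (thickening_subset_interior_cthickening b KB)

theorem exists_cdisj {K L : Set ℂ} (hK : IsCompact K) (hL : IsClosed L) (h : Disjoint K L) :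
    ∃ δ > 0, ∀ a < δ, Disjoint (cthickening a K) (cthickening a L) := by
  obtain ⟨δ, hδ, h1⟩ := h.exists_cthickenings hK hL
  exact ⟨δ, hδ, fun a ha => h1.mono (cthickening_mono ha.le _) (cthickening_mono ha.le _)⟩

theorem exists_val {Wc Fc KA KB : Set ℂ} (hW : IsClosed Wc) (hF : IsClosed Fc) (cA : IsCompact KA)
    (cB : IsCompact KB) (kA : IsPreconnected KA) (kB : IsPreconnected KB) (hd : Disjoint KA KB)
    (hAF : Disjoint KA Fc) (hBW : Disjoint KB Wc) (mA : (KA ∩ Wc).Nonempty)
    (mB : (KB ∩ Fc).Nonempty) : ∃ δ > 0, ∀ ε : ℝ, 0 < ε → ε < δ → Val Wc Fc KA KB ε := by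
  obtain ⟨δ₁, h1, H1⟩ := exists_cdisj cA cB.isClosed hd
  obtain ⟨δ₂, h2, H2⟩ := exists_cdisj cA hF hAF
  obtain ⟨δ₃, h3, H3⟩ := exists_cdisj cB hW hBW
  refine ⟨min δ₁ (min δ₂ δ₃) / 2, by positivity, fun ε hε hlt => ?_⟩
  have e1 := min_le_left δ₁ (min δ₂ δ₃)
  have e2 := (min_le_right δ₁ (min δ₂ δ₃)).trans (min_le_left _ _)
  have e3 := (min_le_right δ₁ (min δ₂ δ₃)).trans (min_le_right _ _)
  exact ⟨hε, cA, cB, kA, kB, H1 _ (by linarith),
    (H2 (2 * ε) (by linarith)).mono_right (self_subset_cthickening _),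
    (H3 (2 * ε) (by linarith)).mono_right (self_subset_cthickening _), mA, mB⟩

theorem isOpen_ev (KA KB : Set ℂ) (ε : ℝ) : IsOpen (Ev KA KB ε) :=
  isOpen_hit isClosed_cthickening isOpen_thickening

theorem ev_sub_evC (KA KB : Set ℂ) (ε : ℝ) : Ev KA KB ε ⊆ EvC KA KB ε := by
  rintro x ⟨t, h1, h2⟩
  exact ⟨t, thickening_subset_cthickening _ _ h1,
    fun s hs h => h2 s hs.le (thickening_subset_cthickening _ _ h)⟩

theorem isClosed_evC (KA KB : Set ℂ) (ε : ℝ) : IsClosed (EvC KA KB ε) := by
  refine IsSeqClosed.isClosed fun x y hx hy => ?_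
  choose t h1 h2 using hx
  obtain ⟨t0, -, φ, hφ, hlim⟩ := isCompact_univ.tendsto_subseq fun n => mem_univ (t n)
  have hev : Tendsto (fun n => x (φ n) (t (φ n))) atTop (𝓝 (y t0)) := by
    have h3 : Tendsto (fun n => x (φ n)) atTop (𝓝 y) := hy.comp hφ.tendsto_atTop
    have h4 := h3.prodMk_nhds hlim
    exact ((ContinuousEval.continuous_eval (F := C(unitInterval, ℂ))).tendsto (y, t0)).comp h4
  refine ⟨t0, isClosed_cthickening.mem_of_tendsto hev (Eventually.of_forall fun n => h1 _), ?_⟩
  intro s hs hmem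
  have h3 : ∀ᶠ n in atTop, s < t (φ n) := hlim.eventually (lt_mem_nhds hs)
  have h4 : Tendsto (fun n => x (φ n) s) atTop (𝓝 (y s)) :=
    ((continuous_eval_const s).tendsto y).comp (hy.comp hφ.tendsto_atTop)
  have h5 := h4.eventually (isOpen_thickening.mem_nhds hmem)
  obtain ⟨n, h6, h7⟩ := (h3.and h5).exists
  exact h2 _ s h6 h7

/-- The approximating sequence of the event. -/
theorem ev_eq_iUnion (KA KB : Set ℂ) {ε : ℝ} (hε : 0 < ε) :
    ∀ x : C(unitInterval, ℂ), x ∈ Ev KA KB ε ↔ ∃ k : ℕ, ∀ l ≥ k,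
      x ∈ Hit (cthickening (ε * (1 + 1 / ((l : ℝ) + 2))) KA)
        (interior (cthickening (ε * (2 - 1 / ((l : ℝ) + 2))) KB)) := by
  intro x
  have hlim : Tendsto (fun l : ℕ => 1 / ((l : ℝ) + 2)) atTop (𝓝 0) := by
    have h1 : Tendsto (fun l : ℕ => (l : ℝ) + 2) atTop atTop :=
      tendsto_atTop_add_const_right _ _ tendsto_natCast_atTop_atTop
    exact tendsto_const_nhds.div_atTop h1
  constructor
  · rintro ⟨t, h1, h2⟩
    -- target
    have e1 : ∀ᶠ l : ℕ in atTop, x t ∈ interior (cthickening (ε * (2 - 1 / ((l : ℝ) + 2))) KB) := by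
      have h3 : infEDist (x t) KB < ENNReal.ofReal (2 * ε) := h1
      have h4 : Tendsto (fun l : ℕ => ENNReal.ofReal (ε * (2 - 1 / ((l : ℝ) + 2)))) atTop
          (𝓝 (ENNReal.ofReal (2 * ε))) := by
        refine ENNReal.tendsto_ofReal ?_
        have := (hlim.const_sub 2).const_mul ε
        rwa [sub_zero, mul_comm ε 2] at this
      filter_upwards [h4.eventually (lt_mem_nhds h3)] with l hl
      exact thickening_subset_interior_cthickening _ _ hl
    have e2 : ∀ᶠ l : ℕ in atTop, ∀ s ≤ t, x s ∉ cthickening (ε * (1 + 1 / ((l : ℝ) + 2))) KA := by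
      have hdis : Disjoint (x '' Iic t) (cthickening ε KA) := by
        rw [Set.disjoint_left]
        rintro _ ⟨s, hs, rfl⟩
        exact h2 s hs
      obtain ⟨δ, hδ, h3⟩ := hdis.exists_thickenings (isCompact_img x t) isClosed_cthickening
      have h4 : Tendsto (fun l : ℕ => ε * (1 + 1 / ((l : ℝ) + 2))) atTop (𝓝 ε) := by
        have := (hlim.const_add 1).const_mul ε
        rwa [add_zero, mul_one] at this
      filter_upwards [h4.eventually (gt_mem_nhds (by linarith : ε < ε + δ))] with l hl s hs hmem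
      refine Set.disjoint_left.1 h3 (self_subset_thickening hδ _ ⟨s, hs, rfl⟩) ?_
      have h5 : cthickening (ε * (1 + 1 / ((l : ℝ) + 2))) KA ⊆ thickening (δ + ε) KA :=
        cthickening_subset_thickening' (by positivity) (by linarith) KA
      have h6 := h5 hmem
      rw [← thickening_cthickening hδ hε.le] at h6
      exact h6
    obtain ⟨k, hk⟩ := eventually_atTop.1 (e1.and e2)
    exact ⟨k, fun l hl => ⟨t, (hk l hl).1, (hk l hl).2⟩⟩
  · rintro ⟨k, hk⟩
    obtain ⟨t, h1, h2⟩ := hk k le_rfl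
    have hk0 : 0 < 1 / ((k : ℝ) + 2) := by positivity
    refine ⟨t, ?_, fun s hs h => h2 s hs (cthickening_mono (by nlinarith) _ h)⟩
    exact cthickening_subset_thickening' (by positivity) (by nlinarith) KB (interior_subset h1)

/-- **Comparable laws give the same probabilities.** -/
theorem meas_le [MeasurableSpace C(unitInterval, ℂ)] {Wc Fc : Set ℂ}
    {m m' : Measure C(unitInterval, ℂ)} (h : CmpLe Wc Fc m m') {J : Type} [Finite J]
    {KA KB : J → Set ℂ} {ε : J → ℝ} (hv : ∀ j, Val Wc Fc (KA j) (KB j) (ε j)) :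
    m (⋂ j, Ev (KA j) (KB j) (ε j)) ≤ m' (⋂ j, Ev (KA j) (KB j) (ε j)) := by
  cases nonempty_fintype J
  set A : ℕ → J → Set ℂ := fun l j => cthickening (ε j * (1 + 1 / ((l : ℝ) + 2))) (KA j) with hA
  set B : ℕ → J → Set ℂ := fun l j => cthickening (ε j * (2 - 1 / ((l : ℝ) + 2))) (KB j) with hB
  have hl : ∀ l : ℕ, 0 < 1 / ((l : ℝ) + 2) ∧ 1 / ((l : ℝ) + 2) ≤ 1 / 2 := by
    intro l
    refine ⟨by positivity, ?_⟩
    apply one_div_le_one_div_of_le (by norm_num)
    have : (0 : ℝ) ≤ l := Nat.cast_nonneg l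
    linarith
  have hanti : ∀ l l' : ℕ, l < l' → 1 / ((l' : ℝ) + 2) < 1 / ((l : ℝ) + 2) := by
    intro l l' hll
    apply one_div_lt_one_div_of_lt (by positivity)
    have : (l : ℝ) < l' := by exact_mod_cast hll
    linarith
  have hadm : ∀ l j, Adm Wc Fc (A l j) (B l j) := by
    intro l j
    have h0 := (hv j).pos
    have h1 := hl l
    refine (hv j).adm ?_ ?_ ?_ ?_
    · positivity
    · nlinarith
    · nlinarith
    · nlinarith
  have hsubA : ∀ l l' j, l < l' → A l' j ⊆ interior (A l j) := by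
    intro l l' j hll
    have h0 := (hv j).pos
    have h1 := hl l
    refine sub_int (by positivity) ?_
    have := hanti l l' hll
    nlinarith
  have hsubB : ∀ l l' j, l < l' → B l j ⊆ interior (B l' j) := by
    intro l l' j hll
    have h0 := (hv j).pos
    have h1 := hl l'
    refine sub_int (by nlinarith) ?_
    have := hanti l l' hll
    nlinarith
  have hmono : Monotone fun l => Evs (A l) (B l) := by
    intro l l' hll x hx j
    rcases hll.eq_or_lt with rfl | hlt
    · exact hx j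
    · exact Hit.mono ((hsubA l l' j hlt).trans interior_subset)
        (interior_mono ((hsubB l l' j hlt).trans interior_subset)) (hx j)
  have hUn : (⋂ j, Ev (KA j) (KB j) (ε j)) = ⋃ l, Evs (A l) (B l) := by
    ext x
    simp only [mem_iInter, mem_iUnion]
    constructor
    · intro hx
      have h1 : ∀ j, ∃ k : ℕ, ∀ l ≥ k, x ∈ Hit (A l j) (interior (B l j)) := fun j =>
        (ev_eq_iUnion (KA j) (KB j) (hv j).pos x).1 (hx j)
      choose k hk using h1
      refine ⟨Finset.univ.sup k, fun j => hk j _ (Finset.le_sup (Finset.mem_univ j))⟩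
    · rintro ⟨l, hx⟩ j
      refine (ev_eq_iUnion (KA j) (KB j) (hv j).pos x).2 ⟨l, fun l' hl' => ?_⟩
      exact hmono hl' hx j
  rw [hUn, hmono.measure_iUnion]
  refine iSup_le fun l => ?_
  refine (h J inferInstance (A l) (B l) (A (l + 1)) (B (l + 1)) (hadm l) (hadm (l + 1))
    (fun j => hsubA l (l + 1) j (Nat.lt_succ_self l))
    (fun j => hsubB l (l + 1) j (Nat.lt_succ_self l))).trans ?_
  exact measure_mono (subset_iUnion (fun l => Evs (A l) (B l)) (l + 1))

end Vale.Agent.P167.H259.C
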