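import Vale.Agent.P167.SLE.Uniq6
import Vale.Agent.P153.R2.ARCX.Nb

/-!
# P167, route (C): the inverse Loewner map is continuous at the tip

`tip_cont`: if `γ t` is alive at all times before `t` then the image of small half discs under
`Finv W t` is near `γ t`.
-/

set_option autoImplicit false

open Set Filter Topology Metric Vale.Agent.P164 Bornology

namespace Vale.Agent.P167.H259.C

open Vale.Agent.P153.R2 Vale.Agent.P153.R2.ARCX Vale.Agent.P167.SLE

variable {W : ℝ → ℝ} {γ : ℝ → ℂ}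

/-- Far points are alive and their images are far. -/
theorem exists_far (hW : Continuous W) {t : ℝ} (ht : 0 ≤ t) (K : ℝ) :
    ∃ R : ℝ, 0 < R ∧ ∀ z : ℂ, 0 < z.im → R ≤ ‖z‖ → z ∈ loewnerDomain W t ∧ K < ‖Zf W z t‖ := by
  obtain ⟨M', hM'⟩ := (isCompact_Icc (a := (0 : ℝ)) (b := t)).exists_bound_of_continuousOn
    hW.continuousOn
  have hM'0 : 0 ≤ |M'| := abs_nonneg _
  set ϰ : ℝ := 8 * (1 + 2 * |M'| + t + |K|) with hϰ
  have hK0 : 0 ≤ |K| := abs_nonneg K
  have hϰ8 : 8 ≤ ϰ := by rw [hϰ]; linarith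
  have hϰ0 : 0 < ϰ := by linarith
  have hϰS : t ≤ ϰ ^ 2 / 64 := by
    have h1 : 8 * (1 + t) ≤ ϰ := by rw [hϰ]; linarith
    have h2 : (8 * (1 + t)) ^ 2 ≤ ϰ ^ 2 := pow_le_pow_left₀ (by linarith) h1 2
    nlinarith
  refine ⟨|M'| + ϰ, by positivity, fun z hz hzR => ?_⟩
  have h := far_point hW hz hϰ0 ht ?_ hϰS ?_
  · refine ⟨h.1, lt_of_le_of_lt ?_ h.2⟩
    have := le_abs_self K
    rw [hϰ]; linarith
  · have h1 := hM' 0 ⟨le_rfl, ht⟩
    have h2 := le_abs_self M'
    have h3 : ‖z‖ - ‖((W 0 : ℝ) : ℂ)‖ ≤ ‖z - (W 0 : ℂ)‖ := norm_sub_norm_le _ _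
    rw [Complex.norm_real] at h3
    linarith
  · intro u hu
    have h1 := hM' 0 ⟨le_rfl, ht⟩
    have h2 := hM' u hu
    have h3 := le_abs_self M'
    rw [Real.norm_eq_abs] at h1 h2
    have h4 : |W u - W 0| ≤ |W u| + |W 0| := abs_sub _ _
    have h5 : ϰ / 8 = 1 + 2 * |M'| + t + |K| := by rw [hϰ]; ring
    rw [h5]
    linarith

theorem disj_trace (h : IsTrace W γ) {s t : ℝ} (hs : 0 ≤ s) (hst : s ≤ t) :
    γ s ∉ loewnerDomain W t := by
  rw [h.domain_eq t (hs.trans hst)]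
  exact fun h' => h'.1.2 ⟨s, ⟨hs, hst⟩, rfl⟩

/-- Boundary points in the upper half-plane are on the trace. -/
theorem mem_trace_of_closure (h : IsTrace W γ) {t : ℝ} (ht : 0 ≤ t) {z : ℂ}
    (hz : z ∉ loewnerDomain W t) (hzc : z ∈ closure (loewnerDomain W t)) (him : 0 < z.im) :
    z ∈ γ '' Icc 0 t := by
  by_contra hcon
  rw [h.domain_eq t ht] at hz hzc
  exact hz (mem_unbComp_of_closure (isOpen_compl_trace h t) Subset.rfl ⟨him, hcon⟩ hzc)

/-- There are points of the domain which are close to `γ t` and whose images are close to `0`. -/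
theorem exists_inner (hW : Continuous W) (h : IsTrace W γ) {t : ℝ} (ht : 0 ≤ t) {r δ : ℝ}
    (hr : 0 < r) (hδ : 0 < δ) : ∃ z ∈ loewnerDomain W t, ‖z - γ t‖ < δ ∧ ‖Zf W z t‖ < r := by
  obtain ⟨δ₁, hδ₁, H₁⟩ := Metric.continuousWithinAt_iff.1 (h.cont t ht) δ hδ
  obtain ⟨δ₂, hδ₂, H₂⟩ := Metric.continuousAt_iff.1 (hW.continuousAt (x := t)) (r / 8)
    (by positivity)
  set u : ℝ := t + min (δ₁ / 2) (min (δ₂ / 2) (r ^ 2 / 64)) with hu
  have hpos : 0 < min (δ₁ / 2) (min (δ₂ / 2) (r ^ 2 / 64)) := by positivity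
  have hm1 := min_le_left (δ₁ / 2) (min (δ₂ / 2) (r ^ 2 / 64))
  have hm2 := (min_le_right (δ₁ / 2) (min (δ₂ / 2) (r ^ 2 / 64))).trans (min_le_left _ _)
  have hm3 := (min_le_right (δ₁ / 2) (min (δ₂ / 2) (r ^ 2 / 64))).trans (min_le_right _ _)
  have htu : t < u := by rw [hu]; linarith
  obtain ⟨z, hz, hz', hzc⟩ := exists_frontier hW ht htu
  obtain ⟨r', hr', hγ, -, -⟩ := exists_time h ht htu hz hz' hzc
  refine ⟨z, hz, ?_, ?_⟩
  · rw [← hγ, ← dist_eq_norm]
    refine H₁ (mem_Ici.2 (ht.trans hr'.1.le)) ?_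
    rw [Real.dist_eq, abs_of_pos (by linarith [hr'.1])]
    have := hr'.2
    rw [hu] at this
    linarith
  · refine near_of_dying hW hr ht htu.le hz hz' (by rw [hu]; linarith) fun v hv => ?_
    have := H₂ (x := v) (by
      rw [Real.dist_eq, abs_of_nonneg (by linarith [hv.1])]
      have := hv.2
      rw [hu] at this
      linarith)
    rw [Real.dist_eq] at this
    exact this.le

/-- **The inverse Loewner map is continuous at the tip.** -/
theorem tip_cont (hW : Continuous W) (h : IsTrace W γ) {t : ℝ} (ht0 : 0 < t)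
    (hsp : ∀ r' : ℝ, 0 ≤ r' → r' < t → γ t ∈ loewnerDomain W r') {d : ℝ} (hd : 0 < d) :
    ∃ ρ > 0, ∀ w : ℂ, 0 < w.im → ‖w‖ < ρ → ‖Finv W t w - γ t‖ ≤ d / 2 := by
  have ht : 0 ≤ t := ht0.le
  set e : ℂ := γ t with he
  have hcont : ContinuousWithinAt γ (Ici 0) t := h.cont t ht
  have hleft : ∀ r : ℝ, 0 < r → ∀ a < t, 0 ≤ a → ∃ b, a ≤ b ∧ b < t ∧
      ∀ s ∈ Icc b t, ‖γ s - e‖ < r := by
    intro r hr a ha ha0
    obtain ⟨δ, hδ, H⟩ := Metric.continuousWithinAt_iff.1 hcont r hr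
    refine ⟨max a (t - δ / 2), le_max_left _ _, max_lt ha (by linarith), fun s hs => ?_⟩
    rw [← dist_eq_norm]
    refine H (mem_Ici.2 (ha0.trans ((le_max_left _ _).trans hs.1))) ?_
    rw [Real.dist_eq, abs_lt]
    have := (le_max_right a (t - δ / 2)).trans hs.1
    constructor <;> linarith [hs.2]
  have hopen : ∀ a : ℝ, 0 ≤ a → IsOpen (loewnerDomain W a) := fun a ha => isOpen_domain_nb ha hW
  -- the first point
  obtain ⟨sa, hsa0, hsas, hsa⟩ := hleft (d / 4) (by positivity) 0 ht0 le_rfl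
  obtain ⟨m1, hm1, hball1⟩ := Metric.isOpen_iff.1 (hopen sa hsa0) e (hsp sa hsa0 hsas)
  set m : ℝ := min m1 (d / 4) with hm
  have hm0 : 0 < m := lt_min hm1 (by positivity)
  have hmm : ∀ z : ℂ, ‖z - e‖ < m → 0 < z.im ∧ z ∉ γ '' Icc 0 sa := by
    intro z hz
    have hz' : z ∈ loewnerDomain W sa := hball1 (by
      rw [mem_ball, dist_eq_norm]; exact hz.trans_le (min_le_left _ _))
    refine ⟨im_pos_of_dom hsa0 hz', ?_⟩
    rintro ⟨u, hu, rfl⟩
    exact disj_trace h hu.1 hu.2 hz'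
  -- the second point
  obtain ⟨sb, hab, hsbs, hsb⟩ := hleft (m / 4) (by positivity) sa hsas hsa0
  have hsb0 : 0 ≤ sb := hsa0.trans hab
  -- the far point
  obtain ⟨R, hR0, hR⟩ := exists_far hW ht 1
  set y : ℂ := ((R + ‖e‖ + d : ℝ) : ℂ) * Complex.I with hy
  have hyn : ‖y‖ = R + ‖e‖ + d := by
    rw [hy, norm_mul, Complex.norm_I, mul_one, Complex.norm_real, Real.norm_eq_abs,
      abs_of_pos (by positivity)]
  have hyim : 0 < y.im := by
    rw [hy]
    simp only [Complex.mul_im, Complex.ofReal_re, Complex.I_im, mul_one, Complex.ofReal_im,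
      Complex.I_re, mul_zero, add_zero]
    positivity
  have hyR : R ≤ ‖y‖ := by rw [hyn]; linarith [norm_nonneg e]
  have hye : d / 2 < ‖y - e‖ := by
    have h1 : ‖y‖ - ‖e‖ ≤ ‖y - e‖ := norm_sub_norm_le y e
    rw [hyn] at h1
    linarith
  obtain ⟨hyd, hy1⟩ := hR y hyim hyR
  have hyW : y ∈ loewnerDomain W sb := dom_mono hsbs.le hyd
  -- the path
  have hP : JoinedIn (loewnerDomain W sb) e y :=
    (isPathConnected_dom hsb0 hW).joinedIn _ (hsp sb hsb0 hsbs) _ hyW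
  obtain ⟨p, hp⟩ := hP
  obtain ⟨d1, hd1, hthick1⟩ := (isCompact_range p.continuous).exists_thickening_subset_open
    (hopen sb hsb0) (by rintro _ ⟨u, rfl⟩; exact hp u)
  have hPj : JoinedIn (range p) e y := ⟨p, fun u => mem_range_self u⟩
  have hP1 : ∀ q ∈ range p, ∀ z : ℂ, ‖z - q‖ < d1 → 0 < z.im ∧ z ∉ γ '' Icc 0 sb := by
    intro q hq z hz
    have hz' : z ∈ loewnerDomain W sb :=
      hthick1 (Metric.mem_thickening_iff.2 ⟨q, hq, by rwa [dist_eq_norm]⟩)
    refine ⟨im_pos_of_dom hsb0 hz', ?_⟩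
    rintro ⟨u, hu, rfl⟩
    exact disj_trace h hu.1 hu.2 hz'
  -- small constants
  set ε : ℝ := min m d1 / 8 with hε
  have hmin : 0 < min m d1 := lt_min hm0 hd1
  have hε0 : 0 < ε := by positivity
  have hεm : ε ≤ m / 8 := by rw [hε]; linarith [min_le_left m d1]
  have hεd : ε ≤ d1 / 8 := by rw [hε]; linarith [min_le_right m d1]
  set A : ℝ := Real.pi * R ^ 2 with hA'
  set r : ℝ := Real.exp (-(2 * Real.pi * A / ε ^ 2 + 1)) with hr
  have hr0 : 0 < r := Real.exp_pos _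
  have hApos : 0 < A := by positivity
  have hr1 : r < 1 := by
    rw [hr, Real.exp_lt_one_iff]
    have : 0 ≤ 2 * Real.pi * A / ε ^ 2 := by positivity
    linarith
  have hK : 2 * Real.pi * (Real.pi * R ^ 2) < ε ^ 2 * Real.log (1 / r) := by
    rw [one_div, Real.log_inv, hr, Real.log_exp, neg_neg, mul_add, mul_one,
      mul_div_cancel₀ _ (by positivity : ε ^ 2 ≠ 0)]
    have : 0 < ε ^ 2 := by positivity
    linarith
  obtain ⟨x, hxd, hxe, hxr⟩ := exists_inner hW h ht hr0 (δ := d1 / 4) (by positivity)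
  obtain ⟨ρ, hρ, hbd, hdiam⟩ := exists_short_cut hW ht hR0 hR hr0 hr1 hε0 hK
  have hρ0 : 0 < ρ := hr0.trans hρ.1
  have hγc : ContinuousOn γ (Icc 0 t) := h.cont.mono fun u hu => hu.1
  obtain ⟨b0, hb0, hb0'⟩ := closure_cut_meets ht hW hρ0 hbd
  have hclc : closure (cut W t ρ) ⊆ closure (loewnerDomain W t) := closure_mono (cut_subset ht hW ρ)
  -- step 1
  have step1 : ∃ b1 ∈ closure (cut W t ρ), b1 ∉ loewnerDomain W t ∧ 0 < b1.im ∧
      b1 ∉ γ '' Icc 0 sb := by
    by_contra hcon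
    push Not at hcon
    obtain ⟨M, hM⟩ : ∃ M : ℝ, closure (cut W t ρ) ∪ {γ 0} ⊆ closedBall 0 M :=
      (hbd.isCompact_closure.isBounded.union Bornology.isBounded_singleton).subset_closedBall 0
    have hγ0 : (γ 0).im ≤ 0 := by rw [h.start]; simp
    have hlow : Convex ℝ ({z : ℂ | z.im ≤ 0} ∩ closedBall 0 M) :=
      (convex_halfSpace_im_le 0).inter (convex_closedBall 0 M)
    have hB'c : IsCompact (({z : ℂ | z.im ≤ 0} ∩ closedBall 0 M) ∪ γ '' Icc 0 sb) :=
      ((isCompact_closedBall 0 M).inter_left (isClosed_le Complex.continuous_im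
        continuous_const)).union
        (isCompact_Icc.image_of_continuousOn (hγc.mono (Icc_subset_Icc_right hsbs.le)))
    have hB'p : IsPreconnected (({z : ℂ | z.im ≤ 0} ∩ closedBall 0 M) ∪ γ '' Icc 0 sb) := by
      refine IsPreconnected.union (γ 0) ⟨hγ0, hM (Or.inr rfl)⟩
        ⟨0, ⟨le_rfl, hsb0⟩, rfl⟩ hlow.isPreconnected
        (isPreconnected_Icc.image _ (hγc.mono (Icc_subset_Icc_right hsbs.le)))
    have hnot := not_joined_union ht hW hxd hyd (hxr.trans hρ.1) (hρ.2.trans hy1) hbd hB'c hB'p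
      ?_ ?_
    · refine hnot ?_
      have hthick : ∀ p' ∈ range p, ∀ z : ℂ, ‖z - p'‖ < d1 / 2 →
          z ∈ (closure (cut W t ρ) ∪ (({z : ℂ | z.im ≤ 0} ∩ closedBall 0 M) ∪
            γ '' Icc 0 sb))ᶜ := by
        intro p' hp' z hz
        rintro (h1 | ⟨h1, -⟩ | h1)
        · have h2 := hdiam b0 hb0 z h1
          have h3 : ‖b0 - p'‖ < d1 := by
            have e1 : b0 - p' = (b0 - z) + (z - p') := by ring
            rw [e1]
            refine (norm_add_le _ _).trans_lt ?_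
            linarith
          exact (hP1 p' hp' b0 h3).2 (hcon b0 hb0 hb0' (hP1 p' hp' b0 h3).1)
        · exact absurd (hP1 p' hp' z (by linarith)).1 (not_lt.2 h1)
        · exact (hP1 p' hp' z (by linarith)).2 h1
      have heP : e ∈ range p := ⟨0, p.source⟩
      have hj1 : JoinedIn (ball e (d1 / 2)) x e :=
        ((convex_ball e (d1 / 2)).isPathConnected ⟨e, mem_ball_self (by positivity)⟩).joinedIn _
          (by rw [mem_ball, dist_eq_norm]; linarith) _ (mem_ball_self (by positivity))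
      refine (hj1.mono ?_).trans (hPj.mono ?_)
      · intro z hz
        rw [mem_ball, dist_eq_norm] at hz
        exact hthick e heP z hz
      · intro z hz
        exact hthick z hz z (by rw [sub_self, norm_zero]; positivity)
    · rintro z (⟨hz, -⟩ | ⟨u, hu, rfl⟩) hz'
      · exact absurd (im_pos_of_dom ht hz') (not_lt.2 hz)
      · exact disj_trace h hu.1 (hu.2.trans hsbs.le) hz'
    · rintro z ⟨hz, hz'⟩
      by_cases him : 0 < z.im
      · exact Or.inr (hcon z hz hz' him)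
      · exact Or.inl ⟨not_lt.1 him, hM (Or.inl hz)⟩
  obtain ⟨b1, hb1, hb1d, hb1im, hb1s⟩ := step1
  obtain ⟨σ, hσ, hσe⟩ : b1 ∈ γ '' Icc 0 t := mem_trace_of_closure h ht hb1d (hclc hb1) hb1im
  have hσb : sb < σ := by
    by_contra hcon
    exact hb1s ⟨σ, ⟨hσ.1, not_lt.1 hcon⟩, hσe⟩
  have hb1e : ‖b1 - e‖ < m / 2 := by
    have h2 := hsb σ ⟨hσb.le, hσ.2⟩
    rw [← hσe]
    linarith
  have hcl : ∀ z ∈ closure (cut W t ρ), ‖z - e‖ < 3 * m / 4 := by
    intro z hz
    have h1 := hdiam z hz b1 hb1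
    have h3 : z - e = (z - b1) + (b1 - e) := by ring
    rw [h3]
    refine (norm_add_le _ _).trans_lt ?_
    linarith
  have hmd : m ≤ d / 4 := min_le_right _ _
  -- step 2
  refine ⟨r, hr0, fun w hw hwr => ?_⟩
  have hzd := Finv_mem ht hW hw
  have hZ : ‖Zf W (Finv W t w) t‖ < ρ := by
    rw [Zf_Finv ht hW hw]
    exact hwr.trans hρ.1
  have hnot := not_joined_union ht hW hzd hyd hZ (hρ.2.trans hy1) hbd
    (B' := γ '' Icc sa t)
    (isCompact_Icc.image_of_continuousOn (hγc.mono (Icc_subset_Icc_left hsa0)))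
    (isPreconnected_Icc.image _ (hγc.mono (Icc_subset_Icc_left hsa0))) ?_ ?_
  · by_contra hcon
    rw [not_le] at hcon
    refine hnot ?_
    have hj : JoinedIn (closedBall e (d / 2))ᶜ (Finv W t w) y := by
      refine P153.TOP.joinedIn_of_preconnected isClosed_closedBall.isOpen_compl
        (P153.TOP.isPreconnected_compl_closedBall e (d / 2)) Subset.rfl ?_ ?_
      · rw [mem_compl_iff, mem_closedBall, dist_eq_norm]
        exact not_le.2 hcon
      · rw [mem_compl_iff, mem_closedBall, dist_eq_norm]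
        exact not_le.2 hye
    refine hj.mono (compl_subset_compl.2 ?_)
    rintro z (hz | ⟨u, hu, rfl⟩)
    · rw [mem_closedBall, dist_eq_norm]
      have := hcl z hz
      linarith
    · rw [mem_closedBall, dist_eq_norm]
      have h2 := hsa u hu
      linarith
  · rintro z ⟨u, hu, rfl⟩ hz'
    exact disj_trace h (hsa0.trans hu.1) hu.2 hz'
  · rintro z ⟨hz, hz'⟩
    have h1 := hcl z hz
    obtain ⟨u, hu, rfl⟩ : z ∈ γ '' Icc 0 t :=
      mem_trace_of_closure h ht hz' (hclc hz) (hmm z (by linarith)).1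
    refine ⟨u, ⟨?_, hu.2⟩, rfl⟩
    by_contra hcon
    rw [not_le] at hcon
    exact (hmm (γ u) (by linarith)).2 ⟨u, ⟨hu.1, hcon.le⟩, rfl⟩

end Vale.Agent.P167.H259.C
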